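import Vale.Agent.P280Z.Gm.Defs
import Vale.Agent.P280Z.Ld.Api
import Vale.Agent.P281Z.An.Crit
import Vale.Agent.P281Z.Mf.An

/-!
# P280Z, block Gm: the rows BAD and LOW
-/

open scoped Manifold ContDiff Topology
open Set Filter
open Vale.Agent.P272.K Vale.Agent.P285.H281.FD Vale.Agent.P281Z
open Vale.Agent.P277Z (Hol Nz)
open Vale.Agent.P277Z.Slc (dd Snc)

noncomputable section

namespace Vale.Agent.P280Z.Gm

namespace Bad

/-- the zeros of a function of one variable are isolated -/
theorem iso {P : Mf 1} {g : P.X → ℂ} {x : P.X} (hg : Hol 1 g x) (h0 : Nz g x) :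
    ∀ᶠ y in 𝓝 x, y = x ∨ g y ≠ 0 := by
  have he := P277Z.at_chart (n := 1) x
  set e := chartAt (Cm 1) x
  have k : ∀ z : Cm 1, (fun _ => z 0) = z := fun z => funext fun i => by rw [Subsingleton.elim i 0]
  have h1 : AnalyticAt ℂ (fun t : ℂ => g (e.symm fun _ => t)) (e x 0) :=
    AnalyticAt.fun_comp (g := fun z => g (e.symm z)) (f := fun (t : ℂ) (_ : Fin 1) => t)
      (by rw [k]; exact hg e he) (AnalyticAt.pi fun _ => analyticAt_id)
  have hc : ContinuousAt (fun y => e y 0) x :=
    (continuous_apply 0).continuousAt.comp (e.continuousAt he.2)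
  rcases h1.eventually_eq_zero_or_eventually_ne_zero with h | h
  · refine (h0 ?_).elim
    filter_upwards [hc.eventually h, at_near he] with y a b
    rwa [k, e.left_inv b.2] at a
  · filter_upwards [hc.eventually (eventually_nhdsWithin_iff.1 h), at_near he] with y a b
    refine or_iff_not_imp_left.2 fun c => ?_
    have := a fun d => c (e.injOn b.2 he.2 (by rw [← k (e y), ← k (e x), show e y 0 = e x 0 from d]))
    rwa [k, e.left_inv b.2] at this

theorem fin {P : Mf 1} {S : Set P.X} (h : Thin 1 S) : S.Finite := by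
  obtain ⟨t, ht⟩ := CompactSpace.elim_nhds_subcover (fun x : P.X => {y | y = x ∨ y ∉ S}) fun x => by
    obtain ⟨g, h1, h2, h3⟩ := h.nz x
    filter_upwards [iso h1 h2, h3] with y a b using a.imp_right fun c d => c (b d)
  refine t.finite_toSet.subset fun y hy => ?_
  obtain ⟨x, hx, k⟩ := mem_iUnion₂.1 (ht.ge (mem_univ y))
  rwa [k.resolve_right fun c => c hy]

end Bad

theorem bad : BAD := by
  refine ⟨fun {n} V M σ hM hσ => ?_, fun {d n} W V g hd hg => ?_⟩
  · have key : ∀ x b (e : Chart n V.X), x ∈ M.U b → At e x →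
        ((∀ b (e : Chart n V.X), x ∈ M.U b → At e x → σ b x = 0 ∧ dd (σ b) e x = 0) ↔
          σ b x = 0 ∧ dd (σ b) e x = 0) := fun x b e hb he => ⟨fun h => h b e hb he,
      fun h b' e' hb' he' => ⟨by rw [hσ.change b' b x hb' hb, h.1, mul_zero], by
        rw [P277Z.Slc.dd_congr (((lb_near hM hb').and (lb_near hM hb)).mono fun y k =>
            hσ.change b' b y k.1 k.2) he',
          P277Z.Slc.dd_mul (lb_hol hM hb' hb) (sec_hol hσ hb) h.1 he',
          P277Z.Slc.dd_chart (sec_hol hσ hb) he he', h.2, ContinuousLinearMap.zero_comp]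
        ext v
        simp⟩⟩
    refine ⟨_, An.of_fin fun x => ?_, key⟩
    obtain ⟨b, hb⟩ := hM.cover x
    have he := P277Z.at_chart (n := n) x
    refine ⟨Option (Fin n), inferInstance,
      fun o y => o.elim (σ b y) fun i => dd (σ b) (chartAt (Cm n) x) y (Pi.single i 1), ?_, ?_⟩
    · rintro (_ | i)
      · exact sec_hol hσ hb
      · exact (anV_chart he).cmp (((ContinuousLinearMap.apply ℂ ℂ (Pi.single i 1 : Cm n)).analyticAt
          _).comp (sec_hol hσ hb _ he).fderiv)
    · filter_upwards [lb_near hM hb, at_near he] with y h1 h2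
      refine (key y b _ h1 h2).trans ⟨fun h => ?_, fun h => ⟨h none, ?_⟩⟩
      · rintro (_ | i)
        · exact h.1
        · exact congrArg (fun L : Cm n →L[ℂ] ℂ => L (Pi.single i 1)) h.2
      · ext v
        rw [pi_eq_sum_univ' v, map_sum]
        exact Finset.sum_eq_zero fun i _ => by
          rw [map_smul, show dd (σ b) (chartAt (Cm n) x) y (Pi.single i 1) = 0 from h (some i),
            smul_zero]
  · have hG : Snc d (Empty.elim : Empty → Set W.X) := fun x => ⟨Empty.elim, fun l => l.elim,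
      fun l => l.1.elim, fun _ _ => linearIndependent_empty_type⟩
    refine (Ana.crit d n W V g Empty Empty.elim hg hG).2.mono (compl_subset_compl.2 ?_)
    rintro _ ⟨x, rfl⟩
    refine ⟨x, fun h => ?_, rfl⟩
    have := ind_le (x := x) ⟨fun a => (h _ (P277Z.at_chart (g x)) Empty.elim
      fun l => l.elim).1 (.inr a), fun e he => ((h _ (P277Z.at_chart (g x)) Empty.elim
        fun l => l.elim).2 e he).comp Sum.inr Sum.inr_injective⟩
    rw [Fintype.card_fin] at this
    omega

theorem low : LOW := by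
  intro T hT P M σ _ hM hσ ⟨x₀, h0⟩ hp
  have hA : An 1 {x | ¬ NZ M σ x} := An.of_fin fun x => by
    obtain ⟨b, hb⟩ := hM.cover x
    exact ⟨Unit, inferInstance, fun _ => σ b, fun _ => sec_hol hσ hb, (lb_near hM hb).mono
      fun y h => (Ld.not_nz hM hσ h).trans ⟨fun k _ => k, fun k => k ()⟩⟩
  have hF := Bad.fin (hA.thin fun k => (k.ge (mem_univ x₀)) h0)
  have e : {x | ∀ _ : Fin 1, ¬ NZ M σ x} = {x | ¬ NZ M σ x} := by simp
  have h := hT.bez P M (fun _ => σ) hM (fun _ => hσ) (e ▸ hF)
  rw [e, pow_one] at h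
  refine le_trans ?_ h
  have hn : {x | ¬ NZ M σ x}.Nonempty := by
    by_contra k
    rw [hT.c1.triv P M σ hM hσ fun x => by_contra fun c => k ⟨x, c⟩, map_zero] at hp
    exact lt_irrefl _ hp
  exact_mod_cast (ncard_pos hF).2 hn

end Vale.Agent.P280Z.Gm
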