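import Vale.Agent.P280Z.Gm.Defs
import Vale.Agent.P280Z.Ld.Api
import Vale.Agent.P301Z.Al.Chow
import Vale.Agent.P301Z.Al.Cone
import Vale.Agent.P301Z.Al.Homp
import Vale.Agent.P301Z.Al.Eqm
import Vale.Agent.P281Z.Rs.All
import Vale.Agent.P281Z.Pb.Ps
import Vale.Agent.P281Z.Sc.Sy
import Vale.Agent.P281Z.Mf.Fib

/-!
# P280Z, block Gm: the theorem of Chow for a very ample system
-/

open scoped Manifold ContDiff Topology
open Set Filter
open Vale.Agent.P272.K Vale.Agent.P285.H281.FD Vale.Agent.P281Z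
open Vale.Agent.P277Z (Hol at_chart)
open Vale.Agent.P277Z.Slc (dd Ind dd_congr)
open Vale.Agent.P280Z.Ld (Bs Va)
open Vale.Agent.P301Z.Al (Pl ev ev_an J cone CHOW chow_of cone_an homp)

noncomputable section

namespace Vale.Agent.P280Z.Gm

namespace ChA

theorem has_ev {N : ℕ} (P : Pl N) (v : Cm N) : HasFDerivAt (ev P)
    (∑ j, MvPolynomial.eval v (MvPolynomial.pderiv j P) •
      (ContinuousLinearMap.proj j : Cm N →L[ℂ] ℂ)) v := by
  induction P using MvPolynomial.induction_on with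
  | C a =>
    have e : ev (MvPolynomial.C a : Pl N) = fun _ => a := funext fun w => MvPolynomial.eval_C _
    rw [e]
    refine (hasFDerivAt_const a v).congr_fderiv ?_
    ext1 w
    simp only [sum_apply, smul_apply, MvPolynomial.pderiv_C, map_zero, smul_eq_mul, zero_mul,
      Finset.sum_const_zero, zero_apply]
  | add P Q hP hQ =>
    have e : ev (P + Q) = fun w => ev P w + ev Q w := funext fun w => map_add _ _ _
    rw [e]
    refine (hP.add hQ).congr_fderiv ?_
    ext1 w
    simp only [add_apply, sum_apply, smul_apply, map_add, smul_eq_mul, add_mul,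
      Finset.sum_add_distrib]
  | mul_X P i hP =>
    have e : ev (P * MvPolynomial.X i) = fun w => ev P w * w i := funext fun w => by
      simp only [ev, map_mul, MvPolynomial.eval_X]
    rw [e]
    refine (hP.mul (ContinuousLinearMap.proj i : Cm N →L[ℂ] ℂ).hasFDerivAt).congr_fderiv ?_
    ext1 w
    simp only [add_apply, smul_apply, sum_apply, ContinuousLinearMap.proj_apply, smul_eq_mul,
      MvPolynomial.pderiv_mul, map_add, map_mul, MvPolynomial.eval_X, MvPolynomial.pderiv_X,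
      add_mul, Finset.sum_add_distrib, Finset.mul_sum, ev]
    rw [add_comm, Finset.sum_eq_single i (f := fun j => MvPolynomial.eval v P *
      MvPolynomial.eval v ((Pi.single j 1 : Fin N → Pl N) i) * w j)]
    · simp only [Pi.single_eq_same, map_one, mul_one]
      congr 1
      exact Finset.sum_congr rfl fun j _ => by ring
    · intro j _ h
      rw [Pi.single_eq_of_ne h.symm, map_zero, mul_zero, zero_mul]
    · exact fun h => absurd (Finset.mem_univ i) h

theorem fd_ev {N : ℕ} (P : Pl N) (v w : Cm N) :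
    fderiv ℂ (ev P) v w = ∑ j, MvPolynomial.eval v (MvPolynomial.pderiv j P) * w j := by
  rw [(has_ev P v).fderiv]
  simp only [sum_apply, smul_apply, ContinuousLinearMap.proj_apply, smul_eq_mul]

variable {K : ℕ} (S : PS K) {v : Cm (K + 1)}

theorem fd_pt (hv : v ≠ 0) {A : S.P.X → ℂ} (hA : Hol K A (S.pt v)) {e' : Chart K S.P.X}
    (he' : At e' (S.pt v)) (η : Cm (K + 1)) : fderiv ℂ (fun u => A (S.pt u)) v η =
      dd A e' (S.pt v) (fderiv ℂ (fun u => e' (S.pt u)) v η) := by
  have h1 : (fun u => A (S.pt u)) =ᶠ[𝓝 v] (fun z => A (e'.symm z)) ∘ fun u => e' (S.pt u) := by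
    filter_upwards [(S.cont v hv).eventually (at_near he')] with u hu
    exact (congrArg A (e'.left_inv hu.2)).symm
  rw [h1.fderiv_eq, fderiv_comp (f := fun u => e' (S.pt u)) v (hA e' he').differentiableAt
    (S.an v hv e' he').differentiableAt]
  rfl

theorem ker_pt (hv : v ≠ 0) {e' : Chart K S.P.X} (he' : At e' (S.pt v)) {η : Cm (K + 1)}
    (h : fderiv ℂ (fun u => e' (S.pt u)) v η = 0) : ∃ c : ℂ, ∀ j, η j = c * v j := by
  obtain ⟨l, hl⟩ := Function.ne_iff.1 hv
  have hl' : v l ≠ 0 := hl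
  obtain ⟨b, hb⟩ := S.lb.cover (S.pt v)
  refine ⟨η l / v l, fun j => ?_⟩
  have h1 := fd_pt S hv ((S.xhol hb j).div (S.xhol hb l) ((S.x_ne_iff hv hb l).2 hl')) he' η
  rw [h, map_zero] at h1
  have h2 : (fun u => u j) =ᶠ[𝓝 v] fun u => S.x b (S.pt u) j / S.x b (S.pt u) l * u l := by
    filter_upwards [eventually_ne_nhds hv, (S.cont v hv).eventually ((S.lb.isOpen b).mem_nhds hb),
      (continuous_apply l).continuousAt.eventually_ne hl'] with u k1 k2 k3
    rw [S.ratio k1 k2, div_mul_cancel₀ _ k3]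
  have h3 := (P301Z.Al.Eqm.an_pt S hv
    ((S.xhol hb j).div (S.xhol hb l) ((S.x_ne_iff hv hb l).2 hl'))).differentiableAt.hasFDerivAt
  have h4 := HasFDerivAt.congr_of_eventuallyEq
    (h3.mul (ContinuousLinearMap.proj l : Cm (K + 1) →L[ℂ] ℂ).hasFDerivAt) h2
  have h5 := congrArg (· η)
    (h4.unique (ContinuousLinearMap.proj j : Cm (K + 1) →L[ℂ] ℂ).hasFDerivAt)
  simp only [add_apply, smul_apply, ContinuousLinearMap.proj_apply, smul_eq_mul, h1, mul_zero,
    add_zero, S.ratio hv hb] at h5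
  rw [← h5]
  ring

variable {n : ℕ} {V : Mf n} {L : Bd V.X}

theorem ne_zero {N : ℕ} {s : Fin N → L.ι → V.X → ℂ} (h : Va n L s) {a : L.ι} {x : V.X}
    (ha : x ∈ L.U a) : (fun j => s j a x : Cm N) ≠ 0 := fun e => by
  have h1 : x ∉ Bs L s := by
    rw [h.bpf]
    exact notMem_empty x
  exact h1 fun j => (Ld.not_nz h.lb (h.sec j).1 ha).2 (congrFun e j)

theorem emb {s : Fin (K + 1) → L.ι → V.X → ℂ} (h : Va n L s) : ∃ φ : V.X → S.P.X,
    Emb n K φ (range φ) ∧ ∀ a, ∀ y ∈ L.U a, φ y = S.pt fun j => s j a y := by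
  obtain ⟨φ, h1, h2⟩ := S.lift_sec h.lb (s := fun a y j => s j a y) (fun j => (h.sec j).1)
    fun a y ha => ne_zero h ha
  refine ⟨φ, ⟨h1, fun x y e => ?_, fun x => ?_, rfl⟩, h2⟩
  · obtain ⟨a, ha⟩ := h.lb.cover x
    obtain ⟨b, hb⟩ := h.lb.cover y
    rw [h2 a x ha, h2 b y hb] at e
    exact h.pts x y a b ha hb ((S.pt_eq_iff' (ne_zero h ha) (ne_zero h hb)).1 e)
  · obtain ⟨a, ha⟩ := h.lb.cover x
    obtain ⟨l, hl⟩ := Function.ne_iff.1 (ne_zero h ha)
    have hl' : s l a x ≠ 0 := hl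
    have he := at_chart (n := n) x
    have hs : ∀ j, Hol n (s j a) x := fun j => sec_hol (h.sec j).1 ha
    refine Imm.cng ((S.imm_iff (s := fun y j => s j a y) hs hl' he).2 fun ξ hξ => ?_)
      ((lb_near h.lb ha).mono fun y hy => (h2 a y hy).symm)
    by_contra hc
    have h3 : ∀ j, s l a x * dd (s j a) _ x ξ - s j a x * dd (s l a) _ x ξ = 0 := fun j => by
      have h4 := not_not.1 (not_exists.1 hc j)
      rw [dd_div (hs j) (hs l) hl' he] at h4
      exact (mul_eq_zero.1 h4).resolve_left (inv_ne_zero (pow_ne_zero 2 hl'))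
    refine hξ (h.tan x a _ ξ ha he fun j k => mul_left_cancel₀ hl' ?_)
    linear_combination s k a x * h3 j - s j a x * h3 k

end ChA

open ChA in
theorem ch : CH := by
  intro n N V L s hs
  cases N with
  | zero =>
    have h0 : ∀ a x, x ∉ L.U a := fun a x ha => ne_zero hs ha (Subsingleton.elim _ _)
    exact ⟨fun A _ => ⟨fun v hv => absurd (Subsingleton.elim _ _) hv,
      fun a x _ ha => absurd ha (h0 a x)⟩, fun a x ha => absurd ha (h0 a x)⟩
  | succ K =>
  obtain ⟨S⟩ := Pb.psex K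
  obtain ⟨φ, hφ, h2⟩ := emb S hs
  have hC := chow_of cone_an homp K S
  have hJ : ∀ A : Set V.X, J (cone S (φ '' A)) ⊆ Jd L s A := fun A P hP =>
    ⟨hP.1, fun a x hx ha => hP.2 _ (Or.inr (h2 a x ha ▸ mem_image_of_mem φ hx))⟩
  have hX : ∀ a x, x ∈ L.U a → AnV n (fun y => (fun j => s j a y : Cm (K + 1))) x :=
    fun a x ha => AnV.pi fun j => sec_hol (hs.sec j).1 ha
  refine ⟨fun A hA => ?_, fun a x ha e he w hw => ?_⟩
  · have hC := hC (φ '' A) (rem _ _ _ _ _ _ hφ.hol hA)
    refine ⟨fun v hv hP => ?_, fun a x hx ha e he h hh h0 ξ hξ => ?_⟩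
    · rcases (hC v).1 fun P k => hP P (hJ A k) with k | ⟨x, hx, k⟩
      · exact absurd k hv
      · obtain ⟨a, ha⟩ := hs.lb.cover x
        rw [h2 a x ha] at k
        obtain ⟨c, hc⟩ := (S.pt_eq_iff hv (ne_zero hs ha)).1 k.symm
        exact ⟨a, x, hx, ha, c, fun j => congrFun hc j⟩
    · have hv := ne_zero hs ha
      have hpt := h2 a x ha
      obtain ⟨H, hH, hHk⟩ := (hφ.imm x).ext (hφ.hol.at x) hh
      have h3 := P301Z.Al.Eqm.an_pt S hv (A := H) (hpt ▸ hH)
      have h4 : dd h e x = dd (fun y => H (S.pt fun j => s j a y)) e x := dd_congr (by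
        filter_upwards [hHk, lb_near hs.lb ha] with y k1 k2
        rw [← h2 a y k2, k1]) he
      rw [h4, P301Z.Al.Eqm.chain (hX a x ha) h3 he]
      refine (hC _).2 (Or.inr (hpt ▸ mem_image_of_mem φ hx)) _ h3 ?_ _ fun P hP =>
        (P301Z.Al.Eqm.chain (hX a x ha) (ev_an _ _) he ξ).symm.trans (hξ P (hJ A hP))
      have h5 := hφ.ev.1 (hHk.and h0)
      rw [hpt] at h5
      filter_upwards [(S.cont _ hv).eventually h5, eventually_ne_nhds hv] with u k1 k2 k3
      obtain ⟨y, k4, k5⟩ := k3.resolve_left k2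
      rw [← k5, (k1 y k5).1, (k1 y k5).2 k4]
  · have hv := ne_zero hs ha
    have hpt := h2 a x ha
    have hC := hC (φ '' univ) (by rw [image_univ]; exact hφ.an)
    obtain ⟨c, g, -, hg, hg'⟩ := hφ.subM (φ x) (mem_range_self x)
    have he' := at_chart (n := K) (φ x)
    set e' := chartAt (Cm K) (φ x)
    have he2 : At e' (S.pt fun j => s j a x) := hpt ▸ he'
    have h3 : ∀ b, dd (g b) e' (φ x) (fderiv ℂ (fun u => e' (S.pt u)) (fun j => s j a x) w) = 0 := by
      intro b
      have h4 : Hol K (g b) (S.pt fun j => s j a x) := hpt ▸ hg.1 b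
      rw [hpt, ← fd_pt S hv h4 he2]
      refine (hC _).2 (Or.inr (hpt ▸ mem_image_of_mem φ (mem_univ x))) _
        (P301Z.Al.Eqm.an_pt S hv h4) ?_ _ fun P hP => (fd_ev P _ w).trans (hw P (hJ _ hP))
      rw [hpt] at hg'
      filter_upwards [(S.cont _ hv).eventually hg', eventually_ne_nhds hv] with u k1 k2 k3
      exact k1.1 (image_univ (f := φ) ▸ k3.resolve_left k2) b
    obtain ⟨ξ, hξ⟩ := ((hφ.tan hg hg').2 e e' he he' _).1 h3
    have h5 : df φ e e' x ξ = fderiv ℂ (fun u => e' (S.pt u)) (fun j => s j a x)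
        fun j => dd (s j a) e x ξ := by
      have k1 : (fun z => e' (φ (e.symm z))) =ᶠ[𝓝 (e x)]
          (fun u => e' (S.pt u)) ∘ fun z => (fun j => s j a (e.symm z) : Cm (K + 1)) :=
        (at_ev he (lb_near hs.lb ha)).mono fun z hz => congrArg e' (h2 a _ hz)
      have k2 : DifferentiableAt ℂ (fun u => e' (S.pt u)) fun j => s j a (e.symm (e x)) := by
        rw [e.left_inv he.2]
        exact (S.an _ hv e' he2).differentiableAt
      rw [df, k1.fderiv_eq, fderiv_comp (f := fun z => (fun j => s j a (e.symm z) : Cm (K + 1)))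
        _ k2 (hX a x ha e he).differentiableAt, ContinuousLinearMap.comp_apply, e.left_inv he.2,
        fderiv_pi fun j => (sec_hol (hs.sec j).1 ha e he).differentiableAt]
      rfl
    obtain ⟨c, hc⟩ := ker_pt S hv he2 (η := w - fun j => dd (s j a) e x ξ)
      (by rw [map_sub, ← hξ, h5, sub_self])
    exact ⟨ξ, c, fun j => by rw [← hc j, Pi.sub_apply, add_sub_cancel]⟩

end Vale.Agent.P280Z.Gm
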