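import Vale.Agent.P280Z.Gm.Defs
import Vale.Agent.P280Z.Ld.Api
import Vale.Agent.P281Z.Nt.Hyp
import Vale.Agent.P281Z.Mf.An
import Vale.Agent.P301.H508.Glue

/-!
# P280Z, block Gm: the fixed part of a linear system
-/

open scoped Manifold ContDiff Topology
open Set Filter
open Vale.Agent.P272.K Vale.Agent.P285.H281.FD Vale.Agent.P281Z
open Vale.Agent.P277Z (Hol)
open Vale.Agent.P277Z.Slc (dd LEq)
open Vale.Agent.P280Z.Ld (Bs)
open Vale.Agent.P301.H508 (PrimX PrimData Prim)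

set_option linter.unusedSectionVars false

noncomputable section

namespace Vale.Agent.P280Z.Gm

namespace GcdH

variable {n r : ℕ} {X : Type} [TopologicalSpace X] [ChartedSpace (Cm n) X]
  [IsManifold 𝓘(ℂ, Cm n) ω X] {x : X}

theorem loc {v : X → Fin r → ℂ} (hv : ∀ j, Hol n (fun y => v y j) x)
    (h0 : ¬ ∀ᶠ y in 𝓝 x, v y = 0) : ∃ (s : X → ℂ) (T : X → Fin r → ℂ),
      ∀ᶠ y in 𝓝 x, Hol n s y ∧ PrimX (d := n) T y ∧ ∀ j, v y j = s y * T y j := by
  have he : At (chartAt (Cm n) x) x := ⟨chart_mem_atlas _ _, mem_chart_source _ _⟩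
  generalize chartAt (Cm n) x = e at he
  obtain ⟨s, T, h1, h2, h3⟩ := P301.H508.sat (w := fun z => v (e.symm z))
    (AnalyticAt.pi fun j => hv j e he) fun k => h0 (P301.H508.ev_of_chart he k)
  have ht : Tendsto e (𝓝 x) (𝓝 (e x)) := e.continuousAt he.2
  refine ⟨fun y => s (e y), fun y => T (e y), ?_⟩
  filter_upwards [ht.eventually h1.eventually_analyticAt, ht.eventually h2, ht.eventually h3,
    at_near he] with y k1 k2 k3 k4
  have k5 : ∀ᶠ z in 𝓝 (e y), z = e (e.symm z) :=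
    mem_of_superset (e.open_target.mem_nhds (e.map_source k4.2)) fun z hz => (e.right_inv hz).symm
  refine ⟨.of_chart k4 (k1.congr (k5.mono fun z hz => congrArg s hz)), .of_chart k4
    ⟨k3.an.congr (k5.mono fun z hz => congrArg T hz), fun k => k3.ne ?_, fun w hw hp => ?_⟩,
    fun j => ?_⟩
  · filter_upwards [k5, k] with z a b using (congrArg T a).trans b
  · obtain ⟨c, c1, c2⟩ := k3.dvd w hw (by
      filter_upwards [k5, hp] with z a b
      rwa [← a] at b)
    refine ⟨c, c1, ?_⟩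
    filter_upwards [k5, c2] with z a b
    rwa [← a]
  · rw [e.left_inv k4.2] at k2
    exact congrFun k2 j

theorem prim_hol {T : X → Fin r → ℂ} (h : PrimX (d := n) T x) (j : Fin r) :
    Hol n (fun y => T y j) x := fun e he => P301.H508.an_comp (h e he).an j

theorem not_dvd {T : X → Fin r → ℂ} (hT : PrimX (d := n) T x) {h : X → ℂ} {e : Chart n X}
    (he : At e x) (hh : Hol n h x) (h0 : h x = 0) (hd : dd h e x ≠ 0) :
    ¬ ∀ᶠ y in 𝓝 x, h y = 0 → ∀ j, T y j = 0 := by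
  intro k
  have hl : LEq n {y | h y = 0} x h := .of_chart (.of_forall fun _ => Iff.rfl) hh he fun _ => hd
  choose u u1 u2 using fun j => Nt.Hp.div hl (prim_hol hT j) (k.mono fun y a b => a b j)
  have u3 := at_ev he (eventually_all.2 u2)
  obtain ⟨c, c1, c2⟩ := (hT e he).dvd (fun z j => u j (e.symm z))
    (AnalyticAt.pi fun j => u1 j e he) (u3.mono fun z a i j => by
      beta_reduce
      rw [a i, a j]
      ring)
  have h1 : ∀ᶠ z in 𝓝 (e x), c z * h (e.symm z) ≠ 1 :=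
    (c1.mul (hh e he)).continuousAt.eventually_ne (by
      simp only [Pi.mul_apply, e.left_inv he.2, h0, mul_zero]
      exact zero_ne_one)
  refine (hT e he).ne ?_
  filter_upwards [u3, c2, h1] with z a b d
  funext j
  have h2 : u j (e.symm z) = c z * T (e.symm z) j := congrFun b j
  have h3 := a j
  rw [h2] at h3
  by_contra h4
  exact d (mul_left_cancel₀ h4 (by linear_combination -h3))

theorem ext {B : Set X} (hB : Thin n B) {f g : X → ℂ} (hf : Hol n f x) (hg : Hol n g x)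
    (h : ∀ᶠ y in 𝓝 x, y ∉ B → f y = g y) : f x = g x :=
  tendsto_nhds_unique_of_frequently_eq hf.cont hg.cont
    (((hB.freq x).and_eventually h).mono fun _ k => k.2 k.1)

end GcdH

open GcdH

/-- **GCD** -/
theorem gcd : GCD := by
  intro n r V A t hc hA ht hB
  have hz : ∀ {a y}, y ∈ A.U a → (y ∈ Bs A t ↔ ∀ j, t j a y = 0) := fun ha =>
    forall_congr' fun j => Ld.not_nz hA (ht j) ha
  have hT : Thin n (Bs A t) := An.thin (fun x => (hA.cover x).elim fun a ha =>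
    ⟨r, fun j => t j a, fun j => sec_hol (ht j) ha, (lb_near hA ha).mono fun _ => hz⟩) hB
  choose a ha using hA.cover
  have h1 : ∀ x, ∃ (s : V.X → ℂ) (T : V.X → Fin r → ℂ) (O : Set V.X), IsOpen O ∧ x ∈ O ∧
      ∀ y ∈ O, y ∈ A.U (a x) ∧ Hol n s y ∧ PrimX (d := n) T y ∧ ∀ j, t j (a x) y = s y * T y j :=
    fun x => by
      obtain ⟨s, T, h⟩ := loc (v := fun y j => t j (a x) y) (fun j => sec_hol (ht j) (ha x))
        fun k => hT.freq x (by
          filter_upwards [k, lb_near hA (ha x)] with y k1 k2 k3 using k3 ((hz k2).2 (congrFun k1)))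
      obtain ⟨O, k1, k2, k3⟩ := eventually_nhds_iff.1 ((lb_near hA (ha x)).and h)
      exact ⟨s, T, O, k2, k3, k1⟩
  choose s T O o1 o2 o3 using h1
  have hn : ∀ {x y z}, z ∈ O x → z ∈ O y → ∀ᶠ w in 𝓝 z, w ∈ O x ∧ w ∈ O y := fun k k' =>
    ((o1 _).eventually_mem k).and ((o1 _).eventually_mem k')
  have hg : ∀ {x y z}, z ∈ O x → z ∈ O y → ∀ j,
      s x z * T x z j = A.g (a x) (a y) z * (s y z * T y z j) := fun k k' j => by
    rw [← (o3 _ _ k).2.2.2, ← (o3 _ _ k').2.2.2, (ht j).change _ _ _ (o3 _ _ k).1 (o3 _ _ k').1]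
  have hne : ∀ {x z}, z ∈ O x → z ∉ Bs A t → ∃ j, s x z ≠ 0 ∧ T x z j ≠ 0 := fun k k' => by
    obtain ⟨j, hj⟩ := not_forall.1 (mt (hz (o3 _ _ k).1).2 k')
    rw [(o3 _ _ k).2.2.2] at hj
    exact ⟨j, mul_ne_zero_iff.1 hj⟩
  obtain ⟨W, w1, w2⟩ := PrimData.glue (d := n)
    { U := O
      isOpen := o1
      mem := o2
      T := T
      prim := fun x z k => (o3 x z k).2.2.1
      D := fun _ _ _ _ => 1
      D_an := fun _ _ _ _ _ _ _ _ => analyticAt_const
      D_ne := fun _ _ _ _ _ _ => one_ne_zero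
      D_coc := fun _ _ _ _ _ _ _ _ => mul_one 1
      par := fun x y z k k' => (hn k k').mono fun w hw i j => by
        have p1 := prim_hol (o3 _ _ hw.1).2.2.1
        have p2 := prim_hol (o3 _ _ hw.2).2.2.1
        rw [one_mul, one_mul]
        refine ext hT ((p1 i).mul (p2 j)) ((p1 j).mul (p2 i)) ((hn hw.1 hw.2).mono fun v hv k => ?_)
        obtain ⟨-, k1, -⟩ := hne hv.1 k
        refine mul_left_cancel₀ k1 ?_
        linear_combination T y v j * hg hv.1 hv.2 i - T y v i * hg hv.1 hv.2 j }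
  have w3 : ∀ {x z}, z ∈ O x → z ∈ W.U x := fun k => w1 ▸ k
  have w4 : ∀ {x y z}, z ∈ O x → z ∈ O y → Hol n (fun w => A.g (a x) (a y) w * W.g y x w) z :=
    fun k k' => (lb_hol hA (o3 _ _ k).1 (o3 _ _ k').1).mul fun e he =>
      W.holo _ _ e _ he (w3 k') (w3 k)
  refine ⟨⟨V.X, O, fun x y w => A.g (a x) (a y) w * W.g y x w⟩, s,
    ⟨o1, fun x => ⟨x, o2 x⟩, fun x y e z he k k' => (w4 k k' e he).contDiffAt,
      fun x y z k k' => mul_ne_zero (hA.ne_zero _ _ _ (o3 _ _ k).1 (o3 _ _ k').1)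
        (W.ne_zero _ _ _ (w3 k') (w3 k)), fun x y v z k k' k'' => ?_⟩,
    isSec_of (fun x z k => (o3 x z k).2.1) fun x y z k k' => ?_, fun x b y k k' j => ?_,
    fun x h e he hh h0 hd k k' => ?_⟩
  · change A.g _ _ z * W.g _ _ z * (A.g _ _ z * W.g _ _ z) = A.g _ _ z * W.g _ _ z
    rw [← hA.cocycle _ _ _ z (o3 _ _ k).1 (o3 _ _ k').1 (o3 _ _ k'').1,
      ← W.cocycle _ _ _ z (w3 k'') (w3 k') (w3 k)]
    ring
  · refine ext hT (o3 x z k).2.1 ((w4 k k').mul (o3 y z k').2.1)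
      ((hn k k').mono fun v hv k => ?_)
    obtain ⟨j, -, k1⟩ := hne hv.1 k
    have k2 : T y v j = W.g y x v * 1 * T x v j := w2 y x v hv.2 hv.1 j
    refine mul_right_cancel₀ k1 ?_
    rw [hg hv.1 hv.2 j, k2]
    ring
  · refine ⟨fun w => A.g b (a y) w * T y w j,
      (lb_hol hA k (o3 _ _ k').1).mul (prim_hol (o3 _ _ k').2.2.1 j), ?_⟩
    filter_upwards [lb_near hA k, (o1 y).mem_nhds k'] with w k1 k2
    rw [(ht j).change b _ w k1 (o3 _ _ k2).1, (o3 _ _ k2).2.2.2, mul_left_comm]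
  · refine not_dvd (o3 x x (o2 x)).2.2.1 he hh h0 hd ?_
    filter_upwards [k, (o1 x).mem_nhds (o2 x),
      (o3 x x (o2 x)).2.1.cont.eventually_ne (k' x (o2 x))] with y k1 k2 k3 k4 j
    have k5 := (hz (o3 _ _ k2).1).1 (k1 k4) j
    rw [(o3 _ _ k2).2.2.2] at k5
    exact (mul_eq_zero.1 k5).resolve_left k3

end Vale.Agent.P280Z.Gm
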