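import Vale.Agent.P280Z.Gm.Defs
import Vale.Agent.P281Z.Mf.Loc

/-!
# P280Z, block Gm: a germ of a hypersurface in the image (row HYP)
-/

open scoped Manifold ContDiff Topology
open Set Filter Function
open Vale.Agent.P272.K Vale.Agent.P281Z
open Vale.Agent.P277Z (Hol)
open Vale.Agent.P277Z.Slc (dd Ind dd_congr)

noncomputable section

namespace Vale.Agent.P280Z.Gm

/-- the differential of a system of coordinates is bijective -/
theorem HypH.co_bij {n : ℕ} {X E : Type} [TopologicalSpace X] [ChartedSpace (Cm n) X]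
    [NormedAddCommGroup E] [NormedSpace ℂ E] {Θ : OpenPartialHomeomorph X E} (h : Co n Θ) {x : X}
    (hx : x ∈ Θ.source) {e : Chart n X} (he : At e x) :
    Bijective (fderiv ℂ (fun w => Θ (e.symm w)) (e x)) := by
  have h0 := Θ.left_inv hx
  have h1 := (h.an x hx e he).differentiableAt.hasFDerivAt
  have h2 := (h.inv _ (Θ.map_source hx) e (h0.symm ▸ he)).differentiableAt.hasFDerivAt
  have h3 := (HasFDerivAt.comp (e x) (g := fun v => e (Θ.symm v)) (by rw [he.left_inv]; exact h2)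
    h1).unique ((hasFDerivAt_id _).congr_of_eventuallyEq (by
      filter_upwards [at_ev he (Θ.open_source.mem_nhds hx), P277Z.At.right he] with w k1 k2
      exact (congrArg e (Θ.left_inv k1)).trans k2))
  have h4 := (HasFDerivAt.comp (Θ x) (g := fun w => Θ (e.symm w)) (by rw [h0]; exact h1)
    h2).unique ((hasFDerivAt_id _).congr_of_eventuallyEq (by
      filter_upwards [(Θ.continuousAt_symm (Θ.map_source hx)).eventually (at_near (h0.symm ▸ he)),
        Θ.open_target.mem_nhds (Θ.map_source hx)] with v k1 k2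
      exact (congrArg Θ k1.left_inv).trans (Θ.right_inv k2)))
  exact ⟨LeftInverse.injective (DFunLike.congr_fun h3),
    RightInverse.surjective (DFunLike.congr_fun h4)⟩

/-- **row HYP** -/
theorem hyp : HYP := by
  intro d n W V g z h hg hh hi
  obtain ⟨Θ, c1, c2, -, c4⟩ := exists_co (ind_of_comp (hg.at z) hh hi) (d := 1) (by simp) univ_mem
  obtain ⟨Ψ, b1, b2, b3, b4⟩ := exists_co hi (d := d - n)
    (by simpa using Nat.add_sub_cancel' (by simpa using ind_le hi))
    ((hg.at z).cont.eventually (Θ.open_source.mem_nhds c2))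
  have h1 : ((Θ (g z)).1, (Ψ z).2) = Ψ z := Prod.ext ((c4 _ c2).trans (b4 z b2).symm) rfl
  have h2 : ((Θ (g z)).1, (Ψ z).2) ∈ Ψ.target := h1 ▸ Ψ.map_source b2
  have h3 : Ψ.symm ((Θ (g z)).1, (Ψ z).2) = z := by rw [h1, Ψ.left_inv b2]
  have h4 : AnV (n + 1) Θ (g z) := c1.an _ c2
  have h5 : Hol (n + 1) (fun y => (Θ y).2 0) (g z) := (h4.cmp analyticAt_snd).hol 0
  have h6 : AnalyticAt ℂ (fun a => (Θ (g (Ψ.symm (a, (Ψ z).2)))).2 0) (Θ (g z)).1 :=
    (b1.an_hol h2 (a := fun w => (Θ (g w)).2 0) (by rw [h3]; exact hg.hol h5)).fun_comp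
      (f := fun a => (a, (Ψ z).2)) (analyticAt_id.prod analyticAt_const)
  have h7 : AnalyticAt ℂ (fun q : (Fin n → ℂ) × Cm 1 =>
      q.2 0 - (Θ (g (Ψ.symm (q.1, (Ψ z).2)))).2 0) (Θ (g z)) :=
    (analyticAt_pi_iff.1 analyticAt_snd 0).sub (h6.fun_comp analyticAt_fst)
  refine ⟨fun y => (Θ y).2 0 - (Θ (g (Ψ.symm ((Θ y).1, (Ψ z).2)))).2 0, h4.cmp h7,
    by simp only [h3, sub_self], ?_, fun e he => ?_⟩
  · filter_upwards [((h4.cmp analyticAt_fst).prod (anV_const (Ψ z).2 _)).cont.eventually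
      (Ψ.open_target.mem_nhds h2), Θ.open_source.mem_nhds c2] with y k1 k2 k3
    have k4 := Ψ.map_target k1
    refine ⟨_, Θ.injOn (b3 k4) k2 (Prod.ext ?_ (funext fun i => ?_))⟩
    · exact ((c4 _ (b3 k4)).trans (b4 _ k4).symm).trans (congrArg Prod.fst (Ψ.right_inv k1))
    · rw [Subsingleton.elim i 0]
      exact (sub_eq_zero.1 k3).symm
  · have k0 := HypH.co_bij c1 c2 he
    have k1 := (h4 e he).differentiableAt.hasFDerivAt
    have k2 := (show DifferentiableAt ℂ (fun a => (Θ (g (Ψ.symm (a, (Ψ z).2)))).2 0)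
      (Θ (e.symm (e (g z)))).1 by rw [he.left_inv]; exact h6.differentiableAt).hasFDerivAt
    have k3 := fun v => DFunLike.congr_fun (((hasFDerivAt_pi'.1 k1.snd) 0).sub
      (HasFDerivAt.comp (e (g z)) (f := fun w => (Θ (e.symm w)).1) k2 k1.fst)).fderiv v
    have k4 := fun i v => DFunLike.congr_fun ((dd_congr (e := e) (a := h i) (b := fun y => (Θ y).1 i)
      ((Θ.open_source.eventually_mem c2).mono fun y hy => (congrFun (c4 y hy) i).symm) he).trans
      ((hasFDerivAt_pi'.1 k1.fst) i).fderiv) v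
    refine ⟨fun k => ?_, fun v k k' => k0.1 ?_⟩
    · obtain ⟨v, hv⟩ := k0.2 (0, 1)
      have k5 := (DFunLike.congr_fun k v).symm.trans (k3 v)
      simp [hv] at k5
    · have k5 : (fderiv ℂ (fun w => Θ (e.symm w)) (e (g z)) v).1 = 0 :=
        funext fun i => (k4 i v).symm.trans (k' i)
      have k6 := k.symm.trans (k3 v)
      rw [map_zero]
      refine Prod.ext k5 (funext fun i => ?_)
      rw [Subsingleton.elim i 0]
      simpa [k5] using k6.symm

end Vale.Agent.P280Z.Gm
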