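import Vale.Agent.P280Z.Gm.Defs
import Vale.Agent.P280Z.Ld.Api
import Vale.Agent.P280Z.Ld.Ber
import Vale.Agent.P281Z.Mf.Fib

/-!
# P280Z, block Gm: complete intersections (rows LAD, CNT)
-/

open scoped Manifold ContDiff Topology
open Set Filter
open Vale.Agent.P272.K Vale.Agent.P285.H281.FD Vale.Agent.P281Z
open Vale.Agent.P277Z (Hol at_chart)
open Vale.Agent.P277Z.Slc (dd Ind ind_iff_surj)
open Vale.Agent.P277.HD (pull)
open Vale.Agent.P280Z.Ld (Bs not_nz)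

noncomputable section

namespace Vale.Agent.P280Z.Gm

namespace LadH

theorem fin0 (Z : Mf 0) : Finite Z.X :=
  have : DiscreteTopology Z.X := ChartedSpace.discreteTopology (Cm 0) Z.X
  finite_of_compact_of_discrete

variable {T : CT} {m n k : ℕ} {V : Mf m} {A M : Bd V.X} {h : Fin k → A.ι → V.X → ℂ}
  {σ : M.ι → V.X → ℂ}

theorem mem_bs (hA : IsLB m A) (hh : ∀ i, IsSec m A (h i)) {a : A.ι} {x : V.X} (ha : x ∈ A.U a) :
    x ∈ Bs A h ↔ ∀ i, h i a x = 0 := forall_congr' fun i => not_nz hA (hh i) ha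

/-- one more section -/
theorem step (hT : T.OK) (hA : IsLB m A) (hM : IsLB m M) (hh : ∀ i, IsSec m A (h i))
    (hσ : IsSec m M σ) (tv : Tv m A h) {Y : Mf (n + 1)} {j : Y.X → V.X}
    (hj : Emb (n + 1) m j (Bs A h))
    (hs : ∀ x ∈ Bs A h, ∃ a b, x ∈ A.U a ∧ x ∈ M.U b ∧ (σ b x = 0 → ∃ v,
      (∀ i, dd (h i a) (chartAt (Cm m) x) x v = 0) ∧ dd (σ b) (chartAt (Cm m) x) x v ≠ 0)) :
    ∃ (Z : Mf n) (i : Z.X → V.X) (hi : Emb n m i (Bs A h ∩ {x | ¬ NZ M σ x})),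
      ∀ a, T.int Y (T.pull hj.hol (T.c1 V M * a)) = T.int Z (T.pull hi.hol a) := by
  obtain ⟨Z, i, hc⟩ := Ld.BerH.cut (hj.hol.lb hM) (hj.hol.sec hσ) fun y => by
    obtain ⟨a, b, ha, hb, k⟩ := hs _ (hj.mem y)
    refine ⟨b, _, hb, at_chart y, fun h0 h1 => ?_⟩
    obtain ⟨v, k1, k2⟩ := k h0
    obtain ⟨w, rfl⟩ := ((hj.tan (tv _ le_rfl _ a ha ((mem_bs hA hh ha).1 (hj.mem y)))
      ((lb_near hA ha).mono fun z hz => mem_bs hA hh hz)).2 _ _ (at_chart y) (at_chart _) v).1 k1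
    exact k2 (DFunLike.congr_fun ((dd_comp (sec_hol hσ hb) (hj.hol.at y) (at_chart y)
      (at_chart _)).symm.trans h1) w)
  have he := hj.comp hc.emb
  rw [show j '' {y | ¬ NZ (pull j M) (fun b y => σ b (j y)) y} = Bs A h ∩ {x | ¬ NZ M σ x} from
    Set.ext fun x => ⟨fun ⟨y, k, e⟩ => e ▸ ⟨hj.mem y, k⟩, fun k => (hj.ex k.1).elim fun y e =>
      ⟨y, show ¬ NZ M σ (j y) from e ▸ k.2, e⟩⟩] at he
  refine ⟨Z, _, he, fun a => ?_⟩
  rw [map_mul, ← hT.c1.pull hj.hol M hM, hT.pl hc,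
    hT.rg.pull_comp hc.emb.hol hj.hol he.hol fun _ => rfl]

theorem cnt0 (hT : T.OK) {Z : Mf 0} {i : Z.X → V.X} {S : Set V.X} (hi : Emb 0 m i S) :
    S.Finite ∧ T.int Z (T.pull hi.hol 1) = S.ncard := by
  have := fin0 Z
  rw [map_one, hT.rg.int_pt, ← hi.rng, ncard_range_of_injective hi.inj]
  exact ⟨finite_range i, rfl⟩

end LadH

open LadH

/-- row LAD -/
theorem lad : LAD := by
  intro T hT k
  induction k with
  | zero =>
    rintro m n V A h rfl hA hh -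
    refine ⟨V, fun x => x, ⟨holM_id, fun _ _ e => e, imm_id,
      Set.ext fun x => ⟨fun _ j => j.elim0, fun _ => ⟨x, rfl⟩⟩⟩, fun a => ?_⟩
    rw [pow_zero, one_mul]
    exact congrArg _ (hT.rg.pull_id _ a).symm
  | succ k ih =>
    intro m n V A h hm hA hh tv
    have tv' : Tv m A fun i : Fin k => h i.castSucc := fun j hj => tv j (hj.trans k.le_succ)
    obtain ⟨Y, j, hj, e⟩ := ih (n := n + 1) V A _ (by omega) hA (fun i => hh _) tv'
    obtain ⟨Z, i, hi, e'⟩ := step hT hA hA (fun i => hh _) (hh (Fin.last k)) tv' hj fun x hx => by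
      obtain ⟨a, ha⟩ := hA.cover x
      refine ⟨a, a, ha, ha, fun h0 => ?_⟩
      obtain ⟨v, hv⟩ := (ind_iff_surj _).1 ((tv _ le_rfl x a ha (Fin.forall_fin_succ'.2
        ⟨(mem_bs hA (fun i => hh _) ha).1 hx, h0⟩)).2 _ (at_chart x)) (Pi.single (Fin.last k) 1)
      exact ⟨v, fun i => (congrFun hv i.castSucc).trans
        (Pi.single_eq_of_ne (Fin.castSucc_ne_last i) _), (congrFun hv (Fin.last k)).trans_ne (by simp)⟩
    refine ⟨Z, i, ⟨hi.hol, hi.inj, hi.imm, hi.rng.trans (Set.ext fun x =>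
      (Fin.forall_fin_succ' (P := fun i => ¬ NZ A (h i) x)).symm)⟩, fun a => ?_⟩
    rw [pow_succ, mul_assoc, e, e']

/-- row CNT -/
theorem cnt : CNT := fun T hT => ⟨fun {k} V A h hA hh tv => by
    obtain ⟨Z, i, hi, e⟩ := lad T hT k (n := 0) V A h (Nat.zero_add k).symm hA hh tv
    rw [← (cnt0 hT hi).2, ← e, mul_one]
    exact ⟨(cnt0 hT hi).1, rfl⟩, fun {k} V A M h σ hA hM hh hσ tv hs => by
    obtain ⟨Y, j, hj, e⟩ := lad T hT k (n := 0 + 1) V A h (by omega) hA hh tv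
    obtain ⟨Z, i, hi, e'⟩ := step hT hA hM hh hσ tv hj fun x hx => by
      obtain ⟨a, ha⟩ := hA.cover x
      obtain ⟨b, hb⟩ := hM.cover x
      obtain ⟨v, k1, k2⟩ := Submodule.exists_mem_ne_zero_of_ne_bot
        (LinearMap.ker_ne_bot_of_finrank_lt (f := (ContinuousLinearMap.pi fun i =>
          dd (h i a) (chartAt (Cm (k + 1)) x) x).toLinearMap) (by simp))
      exact ⟨a, b, ha, hb, fun h0 => ⟨v, congrFun k1, fun h1 => k2 (hs x a b _ ha hb (at_chart x)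
        ((mem_bs hA hh ha).1 hx) h0 v (congrFun k1) h1)⟩⟩
    rw [← (cnt0 hT hi).2, ← e', ← e, mul_one]⟩

end Vale.Agent.P280Z.Gm
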