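import Vale.Agent.P280Z.Gm.Defs
import Vale.Agent.P281Z.Nt.Hyp
import Vale.Agent.P281Z.Mf.An

/-!
# P280Z, block Gm: a thin set near a general point of a smooth hypersurface
-/

open scoped Manifold ContDiff Topology
open Set Filter
open Vale.Agent.P272.K Vale.Agent.P285.H281.FD Vale.Agent.P281Z
open Vale.Agent.P277Z (Hol gW gW_ne_zero isUnit_gW gW_surj gW_dvd gW_mul gW_pow gW_eq_iff)
open Vale.Agent.P277Z.Slc (dd LEq)

noncomputable section

namespace Vale.Agent.P280Z.Gm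

/-- **NOH** -/
theorem noh : NOH := by
  intro n V A x f e hA he hf h0 hd
  obtain ⟨g, hg, h1, h2⟩ := hA.nz x
  have hl : LEq n {y | f y = 0} x f := ⟨.of_forall fun _ => Iff.rfl, fun e' he' =>
    ⟨hf e' he', fun _ k => hd (by
      rw [P277Z.Slc.dd_chart hf he' he, show dd f e' x = 0 from k]
      exact ContinuousLinearMap.zero_comp _)⟩⟩
  obtain ⟨k, u, h3, h4⟩ := WfDvdMonoid.max_power_factor' ((gW_ne_zero he hg).2 h1)
    (fun k => (isUnit_gW he hf).1 k h0)
  obtain ⟨u, hu, rfl⟩ := gW_surj he u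
  rw [← gW_pow he hf, ← gW_mul he (hf.pow k) hu, gW_eq_iff he hg ((hf.pow k).mul hu)] at h4
  have h5 : ∃ᶠ y in 𝓝 x, f y = 0 ∧ u y ≠ 0 := by
    by_contra hc
    exact h3 ((gW_dvd he hf hu).2 (Nt.Hp.div hl hu ((not_frequently.1 hc).mono fun y hy a =>
      not_not.1 fun b => hy ⟨a, b⟩)))
  refine (h5.and_eventually (hu.near.and (h2.and h4).eventually_nhds)).mono fun y hy =>
    ⟨hy.1.1, ?_⟩
  filter_upwards [hy.2.1.ne_near hy.1.2, hy.2.2] with z a b c
  exact eq_zero_of_pow_eq_zero (n := k)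
    ((mul_eq_zero.1 (b.2.symm.trans (b.1 c))).resolve_right a)

end Vale.Agent.P280Z.Gm
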