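import Vale.Agent.P280Z.Gm.Defs
import Vale.Agent.P280Z.Ld.Ber
import Vale.Agent.P280Z.Ld.Api

/-!
# P280Z, block Gm: the theorem of Bertini for finitely many manifolds (row SIM)
-/

open scoped Manifold ContDiff Topology
open Set Filter MeasureTheory
open Vale.Agent.P272.K Vale.Agent.P285.H281.FD Vale.Agent.P281Z
open Vale.Agent.P277Z (Hol at_chart)
open Vale.Agent.P277Z.Slc (dd Ind dd_congr)
open Vale.Agent.P277.HD (pull)
open Vale.Agent.P280Z.Ld (Bs res not_nz sum_apply')

noncomputable section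

namespace Vale.Agent.P280Z.Gm

namespace SimH

theorem fin0 (V : Mf 0) : Finite V.X := by
  have : DiscreteTopology V.X := discreteTopology_iff_isOpen_singleton.2 fun x => by
    have e : (chartAt (Cm 0) x).source = {x} :=
      eq_singleton_iff_unique_mem.2 ⟨mem_chart_source _ x, fun y hy =>
        (chartAt (Cm 0) x).injOn hy (mem_chart_source _ x) (Subsingleton.elim _ _)⟩
    rw [← e]
    exact (chartAt (Cm 0) x).open_source
  exact finite_of_compact_of_discrete

variable {r d k : ℕ} {ι : Type} [Fintype ι]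

theorem sec_lin {V : Mf d} {L : Bd V.X} {t : ι → L.ι → V.X → ℂ} (ht : ∀ j, IsSec d L (t j))
    (c : ι → ℂ) : IsSec d L (∑ j, c j • t j) := by
  rw [show ∑ j, c j • t j = fun a x => ∑ j, c j * t j a x from funext₂ (sum_apply' c t)]
  exact Lf.Bt.sec_sum ht c

/-- the general member of a base point free system has simple zeros -/
theorem gen (Z : Mf r) {L : Bd Z.X} {t : ι → L.ι → Z.X → ℂ} (hL : IsLB r L)
    (ht : ∀ j, IsSec r L (t j)) (h0 : Bs L t = ∅) : ∀ᵐ c : ι → ℂ, ∀ z a, z ∈ L.U a →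
      (∑ j, c j • t j) a z = 0 → dd ((∑ j, c j • t j) a) (chartAt (Cm r) z) z ≠ 0 := by
  cases r with
  | zero =>
    have := fin0 Z
    refine ae_all_iff.2 fun z => ?_
    obtain ⟨j, hj⟩ := not_forall.1 (h0.le.mt (notMem_empty z) : z ∉ Bs L t)
    obtain ⟨b, hb⟩ := hL.cover z
    refine (Ld.BerH.ae_lin (w := fun j => t j b z) (not_not.1 hj b hb)).mono fun c hc a ha h => ?_
    exact (hc ((sum_apply' c t b z).symm.trans
      ((not_nz hL (sec_lin ht c) hb).1 ((not_nz hL (sec_lin ht c) ha).2 h)))).elim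
  | succ r =>
    refine (Ld.ber Z L ι t hL ht (h0 ▸ countable_empty) fun x hx => (h0.le hx).elim).mono ?_
    rintro c ⟨Y, i, hi⟩ z a ha h
    obtain ⟨y, rfl⟩ := hi.ex ha h
    exact hi.tr y a ha _ (at_chart _)

theorem bs_iff {V : Mf d} {L : Bd V.X} {κ : Type} {h : κ → L.ι → V.X → ℂ} (hL : IsLB d L)
    (hh : ∀ i, IsSec d L (h i)) {x : V.X} {a : L.ι} (ha : x ∈ L.U a) :
    x ∈ Bs L h ↔ ∀ i, h i a x = 0 := forall_congr' fun i => not_nz hL (hh i) ha

theorem bs_closed {V : Mf d} {L : Bd V.X} {κ : Type} {h : κ → L.ι → V.X → ℂ} (hL : IsLB d L)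
    (hh : ∀ i, IsSec d L (h i)) : IsClosed (Bs L h) :=
  isOpen_compl_iff.1 (isOpen_iff_mem_nhds.2 fun x hx => by
    obtain ⟨a, ha⟩ := hL.cover x
    obtain ⟨i, hi⟩ := not_forall.1 (mt (bs_iff hL hh ha).2 hx)
    filter_upwards [lb_near hL ha, (sec_hol (hh i) ha).ne_near hi] with y h1 h2 h3
    exact h2 ((bs_iff hL hh h1).1 h3 i))

/-- one more section -/
theorem step (V : Mf d) {L : Bd V.X} {t : ι → L.ι → V.X → ℂ} {h : Fin k → L.ι → V.X → ℂ}
    (hL : IsLB d L) (ht : ∀ j, IsSec d L (t j)) (h0 : Bs L t = ∅) (hh : ∀ i, IsSec d L (h i))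
    (hT : ∀ x a, x ∈ L.U a → (∀ i, h i a x = 0) → Ind d (fun i => h i a) x) :
    ∀ᵐ c : ι → ℂ, ∀ x a, x ∈ L.U a → (∀ i, h i a x = 0) → (∑ j, c j • t j) a x = 0 →
      Ind d (fun o : Option (Fin k) => o.elim ((∑ j, c j • t j) a) fun i => h i a) x := by
  rcases lt_or_ge d k with hk | hk
  · exact .of_forall fun c x a ha h1 _ =>
      absurd (Fintype.card_fin k ▸ ind_le (hT x a ha h1)) (not_le.2 hk)
  obtain ⟨Z, i, hi⟩ := SubM.emb (n := d) (d := d - k) (S := Bs L h) (fun x hx => by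
    obtain ⟨a, ha⟩ := hL.cover x
    exact ⟨k, fun i => h i a, by omega, hT x a ha ((bs_iff hL hh ha).1 hx),
      (lb_near hL ha).mono fun y hy => bs_iff hL hh hy⟩) (bs_closed hL hh).isCompact
  refine (gen Z (t := fun j => res i L (t j)) (hi.hol.lb hL) (fun j => hi.hol.sec (ht j))
    (eq_empty_of_forall_notMem fun z hz => (h0.le (hz : i z ∈ Bs L t)).elim)).mono ?_
  intro c hc x a ha h1 h2
  obtain ⟨z, rfl⟩ := hi.ex ((bs_iff hL hh ha).2 h1)
  have e : ∑ j, c j • res i L (t j) = res i L (∑ j, c j • t j) := by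
    simp only [map_sum, map_smul]
  have h3 := hc z a ha (by rw [e]; exact h2)
  have hs := sec_hol (sec_lin ht c) ha
  rw [e, show res i L (∑ j, c j • t j) a = fun y => (∑ j, c j • t j) a (i y) from rfl,
    dd_comp hs (hi.hol.at z) (at_chart z) (at_chart (i z))] at h3
  obtain ⟨v, hv⟩ := DFunLike.ne_iff.1 h3
  refine Lf.Bt.ind_opt (hT _ a ha h1) hs (at_chart _) (fun l => ?_) hv
  have h4 := dd_comp (sec_hol (hh l) ha) (hi.hol.at z) (at_chart z) (at_chart (i z))
  rw [dd_congr (b := fun _ => 0) ((hi.hol.cont.continuousAt.eventually (lb_near hL ha)).mono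
    fun y hy => (bs_iff hL hh hy).1 (hi.mem y) l) (at_chart z)] at h4
  refine (DFunLike.congr_fun h4 v).symm.trans ?_
  simp [dd]

theorem tv_succ {V : Mf d} {L : Bd V.X} {h : Fin (k + 1) → L.ι → V.X → ℂ}
    (h1 : Tv d L fun i : Fin k => h i.castSucc)
    (h2 : ∀ x a, x ∈ L.U a → (∀ i : Fin k, h i.castSucc a x = 0) → h (Fin.last k) a x = 0 →
      Ind d (fun o : Option (Fin k) => o.elim (h (Fin.last k) a) fun i => h i.castSucc a) x) :
    Tv d L h := by
  intro j hj x a ha h0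
  rcases hj.lt_or_eq with h3 | rfl
  · exact h1 j (Nat.le_of_lt_succ h3) x a ha h0
  · have h4 := h2 x a ha (fun i => h0 i.castSucc) (h0 (Fin.last k))
    have e : (fun i : Fin (k + 1) => h (Fin.castLE hj i) a) = fun i => (finSuccEquivLast i).elim
        (h (Fin.last k) a) fun i => h i.castSucc a := funext fun i => by
      induction i using Fin.lastCases with
      | last => rw [finSuccEquivLast_last]; rfl
      | cast i => rw [finSuccEquivLast_castSucc]; rfl
    rw [e]
    exact ⟨fun i => h4.1 _, fun e he => (h4.2 e he).comp _ finSuccEquivLast.injective⟩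

end SimH

open SimH in
/-- row SIM -/
theorem sim : SIM := by
  intro n X A ι β _ _ s d W g k hA hs h0 hg
  induction k with
  | zero =>
    refine ⟨Fin.elim0, fun b j hj x a _ _ => ?_⟩
    obtain rfl := Nat.le_zero.1 hj
    exact ⟨fun i => i.elim0, fun _ _ => linearIndependent_empty_type⟩
  | succ k ih =>
    obtain ⟨c, hc⟩ := ih
    obtain ⟨c₀, h1⟩ := (ae_all_iff.2 fun b => step (W b) (t := fun j => res (g b) A (s j))
      (h := fun i => res (g b) A (∑ j, c i j • s j)) ((hg b).lb hA) (fun j => (hg b).sec (hs j))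
      (eq_empty_of_forall_notMem fun z hz => (h0.le (hz : g b z ∈ Bs A s)).elim)
      (fun i => (hg b).sec (sec_lin hs (c i))) (hc b k le_rfl)).exists
    refine ⟨Fin.snoc c c₀, fun b => tv_succ ?_ ?_⟩
    · simpa only [Fin.snoc_castSucc] using hc b
    · have e : ∑ j, c₀ j • res (g b) A (s j) = res (g b) A (∑ j, c₀ j • s j) := by
        simp only [map_sum, map_smul]
      simpa only [Fin.snoc_castSucc, Fin.snoc_last, e] using h1 b

end Vale.Agent.P280Z.Gm
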