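import Vale.Agent.P280Z.Gm.Defs
import Vale.Agent.P280Z.Ld.Api

/-!
# P280Z, block Gm: an analytic set is the base locus of a linear system
-/

open scoped Manifold ContDiff Topology
open Set Filter MvPolynomial
open Vale.Agent.P272.K Vale.Agent.P285.H281.FD Vale.Agent.P281Z
open Vale.Agent.P277Z (Hol hol_const)
open Vale.Agent.P277Z.Slc (dd dd_mul)
open Vale.Agent.P280Z.Ld (Bs Va not_nz)

noncomputable section

namespace Vale.Agent.P280Z.Gm

namespace Sys

variable {n N : ℕ} {V : Mf n} {s : Fin N → V.X → ℂ} {x : V.X} {P : MvPolynomial (Fin N) ℂ}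

theorem ev_mul {d : ℕ} (h : P.IsHomogeneous d) (c : ℂ) (v : Fin N → ℂ) :
    eval (fun j => c * v j) P = c ^ d * eval v P := by
  rw [eval_eq, eval_eq, Finset.mul_sum]
  refine Finset.sum_congr rfl fun m hm => ?_
  simp only [mul_pow]
  rw [Finset.prod_mul_distrib, Finset.prod_pow_eq_pow_sum, ← h.degree_eq_sum_deg_support hm]
  ring

theorem hol (h : ∀ j, Hol n (s j) x) (P : MvPolynomial (Fin N) ℂ) :
    Hol n (fun y => eval (fun j => s j y) P) x := by
  induction P using MvPolynomial.induction_on with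
  | C c => simpa only [eval_C] using hol_const c x
  | add P Q h1 h2 =>
    simp only [map_add]
    exact fun e he => (h1 e he).add (h2 e he)
  | mul_X P j h1 => simpa only [map_mul, eval_X] using h1.mul (h j)

theorem span (h : ∀ j, Hol n (s j) x) {e : Chart n V.X} (he : At e x)
    {S : Set (MvPolynomial (Fin N) ℂ)} (h0 : ∀ P ∈ S, eval (fun j => s j x) P = 0 ∧
      dd (fun y => eval (fun j => s j y) P) e x = 0) (hP : P ∈ Ideal.span S) :
    eval (fun j => s j x) P = 0 ∧ dd (fun y => eval (fun j => s j y) P) e x = 0 := by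
  induction hP using Submodule.span_induction with
  | mem P hP => exact h0 P hP
  | zero => simp [dd]
  | add P Q _ _ h1 h2 =>
    refine ⟨by rw [map_add, h1.1, h2.1, add_zero], ?_⟩
    simp only [map_add]
    exact (fderiv_fun_add (hol h P e he).differentiableAt (hol h Q e he).differentiableAt).trans
      ((congrArg₂ _ h1.2 h2.2).trans (add_zero _))
  | smul Q P _ h1 =>
    simp only [smul_eq_mul, map_mul]
    exact ⟨by rw [h1.1, mul_zero], (dd_mul (hol h Q) (hol h P) h1.1 he).trans
      ((congrArg _ h1.2).trans (smul_eq_zero.2 (.inr rfl)))⟩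

end Sys

theorem sys_of (h : CH) : SYS := by
  intro n N V L s A hV hA
  obtain ⟨c1, c2⟩ := (h V L s hV).1 A hA
  obtain ⟨S, hS, hS'⟩ := (Submodule.fg_span_iff_fg_span_finset_subset
    (R := MvPolynomial (Fin N) ℂ) (Jd L s A)).1 (IsNoetherian.noetherian _)
  have sp : ∀ P ∈ Jd L s A, P ∈ Ideal.span (S : Set (MvPolynomial (Fin N) ℂ)) :=
    fun P hP => hS'.le (Submodule.subset_span hP)
  choose d hd using fun i : S => (hS i.2).1
  have hh : ∀ a, ∀ x ∈ L.U a, ∀ j, Hol n (s j a) x := fun a x ha j => sec_hol (hV.sec j).1 ha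
  have nz : ∀ x, ∃ l, NZ L (s l) x := fun x => by
    by_contra k
    exact (hV.bpf ▸ (not_exists.1 k : x ∈ Bs L s) : x ∈ (∅ : Set V.X))
  let t : S × Fin N → (L.pow (∑ i, d i)).ι → V.X → ℂ := fun p a x =>
    eval (fun j => s j a x) (X p.2 ^ (∑ i, d i - d p.1) * p.1.1)
  have ts : ∀ p, IsSec n (L.pow (∑ i, d i)) (t p) := fun p =>
    isSec_of (fun a x ha => Sys.hol (hh a x ha) _) fun a b x ha hb => by
      have k := ((isHomogeneous_X ℂ p.2).pow (∑ i, d i - d p.1)).mul (hd p.1)
      rw [one_mul, Nat.sub_add_cancel (Finset.single_le_sum (f := d) (fun _ _ => Nat.zero_le _)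
        (Finset.mem_univ _))] at k
      exact (congrArg (eval · _) (funext fun j => (hV.sec j).1.change a b x ha hb)).trans
        (Sys.ev_mul k _ _)
  have te : ∀ p a, t p a = fun x => s p.2 a x ^ (∑ i, d i - d p.1) * eval (fun j => s j a x) p.1.1 :=
    fun p a => funext fun x => by simp only [t, map_mul, map_pow, eval_X]
  have su := (Fintype.equivFin (S × Fin N)).symm.surjective
  refine ⟨∑ i, d i, _, fun j => t ((Fintype.equivFin _).symm j), fun j => ts _,
    Set.ext fun x => ?_, fun x hx a ha e he f hf h0 h1 => ?_⟩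
  · obtain ⟨a, ha⟩ := hV.lb.cover x
    obtain ⟨l, hl⟩ := nz x
    refine ⟨fun k => ?_, fun k j => (not_nz (lb_pow hV.lb _) (ts _) ha).2 ?_⟩
    · obtain ⟨b, y, hy, hb, c, hc⟩ := c1 (fun j => s j a x) (fun e => hl a ha (congrFun e l))
        fun P hP => (Ideal.span_le (I := RingHom.ker (eval fun j => s j a x))).2 (fun F hF => by
          obtain ⟨j, hj⟩ := su (⟨F, hF⟩, l)
          have k1 := (not_nz (lb_pow hV.lb _) (ts _) ha).1 (k j)
          rw [hj] at k1
          exact (mul_eq_zero.1 ((congrFun (te _ a) x).symm.trans k1)).resolve_left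
            (pow_ne_zero _ (hl a ha))) (sp P hP)
      rwa [hV.pts x y a b ha hb fun j k => by rw [hc j, hc k]; ring]
    · exact (congrFun (te _ a) x).trans
        (mul_eq_zero_of_right _ ((hS (Subtype.property _)).2 a x k ha))
  · by_contra k
    obtain ⟨l, hl⟩ := nz x
    refine h1 (ContinuousLinearMap.ext fun ξ => c2 a x hx ha e he f hf h0 ξ fun P hP => ?_)
    rw [(Sys.span (hh a x ha) he (fun F hF => ?_) (sp P hP)).2]
    · rfl
    have k0 := (hS hF).2 a x hx ha
    obtain ⟨j, hj⟩ := su (⟨F, hF⟩, l)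
    have k1 := not_not.1 (not_exists.1 k j)
    beta_reduce at k1
    rw [hj, te, dd_mul (fun e he => (hh a x ha l e he).pow _) (Sys.hol (hh a x ha) F) k0 he] at k1
    exact ⟨k0, (smul_eq_zero.1 k1).resolve_left (pow_ne_zero _ (hl a ha))⟩

end Vale.Agent.P280Z.Gm
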