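import Vale.Agent.P280Z.Gm.Defs
import Vale.Agent.P280Z.Ld.Api
import Vale.Agent.P281Z.Mf.An
import Vale.Agent.P281Z.An.Defs
import Vale.Agent.P281Z.Nt.Hyp

/-!
# P280Z, block Gm: the line bundle of the image of a manifold of codimension one
-/

open scoped Manifold ContDiff Topology
open Set Filter
open Vale.Agent.P272.K Vale.Agent.P285.H281.FD Vale.Agent.P281Z
open Vale.Agent.P277Z (Hol at_chart)
open Vale.Agent.P277Z.Slc (lin dd Ind LEq dd_congr dd_mul dd_cont)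
open Vale.Agent.P277.HD (pull)
open Vale.Agent.P280Z.Ld (Bs Va res h0 Ap)

noncomputable section

namespace Vale.Agent.P280Z.Gm

namespace UpH

variable {n : ℕ} {X : Mf n} {x : X.X} {f u : X.X → ℂ} {e : Chart n X.X}

theorem near (he : At e x) (hf : Hol n f x) (hd : dd f e x ≠ 0) :
    ∀ᶠ y in 𝓝 x, At e y ∧ Hol n f y ∧ dd f e y ≠ 0 :=
  (at_near he).and (hf.near.and ((dd_cont hf he).eventually_ne hd))

theorem dvd (he : At e x) (hf : Hol n f x) (h0 : f x = 0) (hd : dd f e x ≠ 0) (hu : Hol n u x)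
    (h : ∀ᶠ y in 𝓝 x, f y = 0 → u y = 0) : ∃ c : ℂ, dd u e x = c • dd f e x := by
  obtain ⟨w, h1, h2⟩ := Nt.Hp.div (D := {y | f y = 0})
    (LEq.of_chart (.of_forall fun _ => Iff.rfl) hf he fun _ => hd) hu h
  exact ⟨w x, (dd_congr h2 he).trans (dd_mul h1 hf h0 he)⟩

/-- the dimensions of the family -/
def dm (n : ℕ) : Fin (n + 1 + 1) ⊕ Bool → ℕ
  | .inl d => d
  | .inr true => n + 1
  | .inr false => n

/-- the manifolds of the family -/
def fm {n : ℕ} (W : ∀ d : Fin (n + 1 + 1), Mf d) (X : Mf (n + 1)) (V : Mf n) : ∀ b, Mf (dm n b)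
  | .inl d => W d
  | .inr true => X
  | .inr false => V

/-- the maps of the family -/
def mp {n : ℕ} {W : ∀ d : Fin (n + 1 + 1), Mf d} {X : Mf (n + 1)} {V : Mf n}
    (q : ∀ d, (W d).X → X.X) (g : V.X → X.X) : ∀ b, (fm W X V b).X → X.X
  | .inl d => q d
  | .inr true => fun x => x
  | .inr false => g

end UpH

open UpH in
theorem up_of (hR : REM) (hP : Ana.PAR) (h1 : SYS) (h2 : GCD) (h3 : HYP) (h4 : NOH) (h5 : SIM)
    (h6 : CNT) (h7 : BAD) : UP := by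
  intro T hT n N X V g hg H s hc hs hpos
  have hG : An (n + 1) (range g) := image_univ ▸ hR n (n + 1) V X g univ hg an_univ
  have hth : Thin (n + 1) (range g) := ⟨hG, h7.2 V X g n.lt_succ_self hg⟩
  obtain ⟨D, r, t, ht, hB, hred⟩ := h1 X H s _ hs hG
  have hD := lb_pow hs.lb D
  obtain ⟨M, σ, hM, hσ, hdiv, hprim⟩ := h2 X (H.pow D) t inferInstance hD ht
    (by rw [hB]; exact hth.ne_univ)
  have hz : ∀ x, x ∉ range g → NZ M σ x := fun x hx b hb k0 => hx <| hB ▸ fun j hj => by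
    obtain ⟨a, ha⟩ := hD.cover x
    obtain ⟨u, -, hu⟩ := hdiv x a b ha hb j
    exact hj a ha (by rw [hu.self_of_nhds, k0, zero_mul])
  obtain ⟨B, hBa, hBx⟩ := h7.1 X M σ hM hσ
  obtain ⟨W, q, hq, hW, -⟩ := hP (n + 1) X B hBa
  have noh : ∀ x f (e : Chart (n + 1) X.X), At e x → Hol (n + 1) f x → f x = 0 → dd f e x ≠ 0 →
      ¬ ∀ᶠ y in 𝓝 x, f y = 0 → y ∈ B := fun x f e he hf k0 hd k => by
    obtain ⟨y, ⟨a1, a2⟩, a3, a4, a5, a6⟩ :=
      ((h4 X _ x f e hth he hf k0 hd).and_eventually (k.and (near he hf hd))).exists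
    obtain ⟨a, ha⟩ := hD.cover y
    obtain ⟨b, hb⟩ := hM.cover y
    obtain ⟨b1, b2⟩ := (hBx y b e hb a4).1 (a3 a1)
    have hy : y ∈ range g := by_contra fun c => hz y c b hb b1
    obtain ⟨j, hj⟩ := hred y hy a ha e a4 f a5 a2 a6
    obtain ⟨u, c1, c2⟩ := hdiv y a b ha hb j
    refine hj ?_
    rw [dd_congr (c2.mono fun z k => k.trans (mul_comm _ _)) a4, dd_mul c1 (sec_hol hσ hb) b1 a4,
      b2]
    exact ContinuousLinearMap.ext fun v => mul_zero _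
  obtain ⟨c, hc⟩ := h5 X H (Fin N) _ s (dm n) (fm W X V) (mp q g) n hs.lb (fun j => (hs.sec j).1)
    hs.bpf (by rintro (d | _ | _); exacts [hq d, hg, holM_id])
  set h : Fin n → H.ι → X.X → ℂ := fun i => ∑ j, c i j • s j
  have hh : ∀ i, IsSec (n + 1) H (h i) := fun i =>
    ((Ld.Γ (n + 1) H).sum_mem fun j _ => (Ld.Γ (n + 1) H).smul_mem _ (hs.sec j)).1
  have key : ∀ (d : ℕ) (Y : Mf d) (k : Y.X → X.X), HolM d (n + 1) k →
      Tv d (pull k H) (fun i => res k H (h i)) → ∀ z a, k z ∈ H.U a → k z ∈ Bs H h →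
      ∃ f : X.X → ℂ, Hol (n + 1) f (k z) ∧ f (k z) = 0 ∧
        (∀ᶠ y in 𝓝 (k z), f y = 0 → y ∈ range k) ∧ ∀ e : Chart (n + 1) X.X, At e (k z) →
        dd f e (k z) ≠ 0 ∧ ∀ v, dd f e (k z) v = 0 → (∀ i, dd (h i a) e (k z) v = 0) → v = 0 :=
    fun d Y k hk tv z a ha hb => h3 Y X k z (fun i => h i a) hk (fun i => sec_hol (hh i) ha)
      (tv n le_rfl z a ha fun i => (Ld.not_nz hs.lb (hh i) ha).1 (hb i))
  have nb : ∀ x ∈ Bs H h, x ∉ B := fun x hx k => by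
    obtain ⟨d, z, rfl⟩ := mem_iUnion.1 (hW ▸ k)
    obtain ⟨a, ha⟩ := hs.lb.cover (q d z)
    obtain ⟨f, a1, a2, a3, a4⟩ := key _ _ _ (hq d) (hc (.inl d)) z a ha hx
    exact noh _ f _ (at_chart _) a1 a2 (a4 _ (at_chart _)).1
      (a3.mono fun y k k' => hW ▸ mem_iUnion.2 ⟨d, k k'⟩)
  have on : ∀ z a b (e : Chart (n + 1) X.X), g z ∈ H.U a → g z ∈ M.U b → At e (g z) →
      g z ∈ Bs H h → σ b (g z) = 0 ∧ ∀ v, (∀ i, dd (h i a) e (g z) v = 0) →
        dd (σ b) e (g z) v = 0 → v = 0 := fun z a b e ha hb he hx => by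
    obtain ⟨f, a1, a2, a3, a4⟩ := key _ _ _ hg (hc (.inr false)) z a ha hx
    have a5 : ∀ᶠ y in 𝓝 (g z), f y = 0 → σ b y = 0 := by
      filter_upwards [near he a1 (a4 e he).1, a3.eventually_nhds, lb_near hM hb] with y k1 k2 k3 k4
      exact (Ld.not_nz hM hσ k3).1 (hprim y f e k1.1 k1.2.1 k4 k1.2.2 (hB ▸ k2))
    obtain ⟨w, hw⟩ := dvd he a1 a2 (a4 e he).1 (sec_hol hσ hb) a5
    refine ⟨a5.self_of_nhds a2, fun v k1 k2 => (a4 e he).2 v ?_ k1⟩
    have hw0 : w ≠ 0 := fun k => nb _ hx ((hBx _ b e hb he).2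
      ⟨a5.self_of_nhds a2, by rw [hw, k]; exact ContinuousLinearMap.ext fun v => zero_mul _⟩)
    rw [hw] at k2
    exact (mul_eq_zero.1 k2).resolve_left hw0
  obtain ⟨f1, f2⟩ := (h6 T hT).1 V (pull g H) _ (hg.lb hs.lb)
    (fun i => show IsSec n _ (res g H (h i)) from hg.sec (hh i))
    (hc (.inr false))
  have f3 := (h6 T hT).2 X H M h σ hs.lb hM hh hσ (hc (.inr true)) fun x a b e ha hb he k1 k2 => by
    obtain ⟨z, rfl⟩ : x ∈ range g := by_contra fun c => hz x c b hb k2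
    exact (on z a b e ha hb he fun i => (Ld.not_nz hs.lb (hh i) ha).2 (k1 i)).2
  have f4 : Bs H h ∩ {x | ¬ NZ M σ x} = g '' Bs (pull g H) fun i => res g H (h i) := by
    refine Subset.antisymm (fun x hx => ?_) ?_
    · obtain ⟨z, rfl⟩ : x ∈ range g := by_contra fun c => hx.2 (hz x c)
      exact ⟨z, hx.1, rfl⟩
    · rintro _ ⟨z, hx, rfl⟩
      obtain ⟨a, ha⟩ := hs.lb.cover (g z)
      obtain ⟨b, hb⟩ := hM.cover (g z)
      exact ⟨hx, fun k => k b hb (on z a b _ ha hb (at_chart _) hx).1⟩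
  rw [hT.c1.pull hg H hs.lb, ← map_pow] at f2
  rw [f4] at f3
  refine ⟨M, σ, hM, hσ, hth.dense.mono hz, hz, ?_, ?_⟩
  · rw [f2, Nat.cast_pos, ncard_pos f1] at hpos
    rw [f3, Nat.cast_pos, ncard_pos (f1.image g)]
    exact hpos.image g
  · rw [f2, f3, Nat.cast_le]
    exact ncard_image_le f1

end Vale.Agent.P280Z.Gm
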