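import Vale.Agent.P280Z.Ld.Defs
import Vale.Agent.P280Z.Hr.Td
import Mathlib.RingTheory.MvPolynomial.Homogeneous
import Mathlib.Algebra.MvPolynomial.PDeriv

/-!
# P280Z, block Gm: connected fibres and the fundamental line bundle (definitions, statements)
-/

open scoped Manifold ContDiff Topology
open Set Filter
open Vale.Agent.P272.K Vale.Agent.P285.H281.FD Vale.Agent.P281Z
open Vale.Agent.P277Z (Hol)
open Vale.Agent.P277Z.Slc (lin dd Ind)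
open Vale.Agent.P277.HD (pull)
open Vale.Agent.P280Z.Ld (Bs Va res h0 Ap)

noncomputable section

namespace Vale.Agent.P280Z.Gm

/-- the theorem of Riemann and Roch, with the vanishing theorem -/
def HRR (T : CT) : Prop := ∀ {n : ℕ} (V : Mf n) (M : Bd V.X), IsLB n M → Ap T V M →
  (h0 n M : ℝ) = T.RR V (T.c1 V M)

/-- the class `-K` is a Kähler class -/
def Fa (T : CT) {n : ℕ} (V : Mf n) : Prop := T.Kc V (-T.c1 V (Bd.can n V.X))

/-- the Todd genus of a connected Fano manifold -/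
def RR1 (T : CT) : Prop := ∀ {n : ℕ} (V : Mf n), ConnectedSpace V.X → Fa T V → T.RR V 0 = 1

/-- numerically trivial line bundles on a connected Fano manifold are trivial -/
def TRIV (T : CT) : Prop := ∀ {n : ℕ} (V : Mf n) (M : Bd V.X), ConnectedSpace V.X → Fa T V →
  IsLB n M → T.c1 V M = 0 → ∃ s, IsSec n M s ∧ ∀ x, NZ M s x

/-- row RT -/
def RT : Prop := ∀ T : CT, T.OK → HRR T → RR1 T ∧ TRIV T

/-- row FIBI: integration over one fibre -/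
def FIBI : Prop := ∀ T : CT, T.OK → ∀ {n m d : ℕ} {V : Mf n} {W : Mf m} (f : V.X → W.X) (y : W.X),
  n = m + d → Sub n m f → (∃ (F : Mf d) (i : F.X → V.X), Emb d n i (f ⁻¹' {y})) ∧
    ∀ (F : Mf d) (i : F.X → V.X) (hi : Emb d n i (f ⁻¹' {y})) (a : T.H V) (c : ℝ),
      T.push f a = algebraMap ℝ _ c → T.int F (T.pull hi.hol a) = c

/-- row CQ: the space of the components of the fibres -/
def CQ : Prop := ∀ {m n : ℕ} (U : Mf m) (X : Mf n) (e : U.X → X.X), Sub m n e →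
  ∃ (Y : Mf n) (π : U.X → Y.X) (ε : Y.X → X.X), Continuous π ∧ Function.Surjective π ∧
    Sub n n ε ∧ (∀ u, ε (π u) = e u) ∧ ∀ y, IsPreconnected (π ⁻¹' {y})

/-- row ETA: unramified coverings -/
def ETA : Prop := ∀ T : CT, T.OK → ∀ {n : ℕ} (Y X : Mf n) (ε : Y.X → X.X), Sub n n ε →
  PreconnectedSpace X.X → (Fa T X → Fa T Y) ∧
    ∀ x, (ε ⁻¹' {x}).Finite ∧ T.RR Y 0 = (ε ⁻¹' {x}).ncard * T.RR X 0

/-- **first output of the block**: the fibres are connected -/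
def COV : Prop := ∀ T : CT, T.OK → HRR T → ∀ {m n : ℕ} (U : Mf m) (X : Mf n) (e : U.X → X.X),
  Sub m n e → ConnectedSpace U.X → ConnectedSpace X.X → Fa T X → ∀ x, IsConnected (e ⁻¹' {x})

/-- the homogeneous polynomials which vanish on the cone over `A` -/
def Jd {X : Type} {N : ℕ} (L : Bd X) (s : Fin N → L.ι → X → ℂ) (A : Set X) :
    Set (MvPolynomial (Fin N) ℂ) :=
  {P | (∃ d, P.IsHomogeneous d) ∧
    ∀ a, ∀ x ∈ A, x ∈ L.U a → MvPolynomial.eval (fun j => s j a x) P = 0}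

/-- row CH: the theorem of Chow -/
def CH : Prop := ∀ {n N : ℕ} (V : Mf n) (L : Bd V.X) (s : Fin N → L.ι → V.X → ℂ), Va n L s →
  (∀ A : Set V.X, An n A →
    (∀ v : Fin N → ℂ, v ≠ 0 → (∀ P ∈ Jd L s A, MvPolynomial.eval v P = 0) →
      ∃ a, ∃ x ∈ A, x ∈ L.U a ∧ ∃ c : ℂ, ∀ j, v j = c * s j a x) ∧
    ∀ a, ∀ x ∈ A, x ∈ L.U a → ∀ e : Chart n V.X, At e x → ∀ h, Hol n h x →
      (∀ᶠ y in 𝓝 x, y ∈ A → h y = 0) → ∀ ξ, (∀ P ∈ Jd L s A,
        dd (fun y => MvPolynomial.eval (fun j => s j a y) P) e x ξ = 0) → dd h e x ξ = 0) ∧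
  ∀ a x, x ∈ L.U a → ∀ e : Chart n V.X, At e x → ∀ w : Fin N → ℂ, (∀ P ∈ Jd L s univ,
    ∑ j, MvPolynomial.eval (fun l => s l a x) (MvPolynomial.pderiv j P) * w j = 0) →
    ∃ (ξ : Cm n) (c : ℂ), ∀ j, w j = dd (s j a) e x ξ + c * s j a x

/-- row SYS: an analytic set is the base locus of a linear system, reduced at its smooth points -/
def SYS : Prop := ∀ {n N : ℕ} (V : Mf n) (L : Bd V.X) (s : Fin N → L.ι → V.X → ℂ) (A : Set V.X),
  Va n L s → An n A → ∃ (D r : ℕ) (t : Fin r → (L.pow D).ι → V.X → ℂ),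
    (∀ j, IsSec n (L.pow D) (t j)) ∧ Bs (L.pow D) t = A ∧
    ∀ x ∈ A, ∀ a, x ∈ (L.pow D).U a → ∀ e : Chart n V.X, At e x → ∀ h, Hol n h x →
      (∀ᶠ y in 𝓝 x, y ∈ A → h y = 0) → dd h e x ≠ 0 → ∃ j, dd (t j a) e x ≠ 0

/-- row GCD: the fixed part of a linear system -/
def GCD : Prop := ∀ {n r : ℕ} (V : Mf n) (A : Bd V.X) (t : Fin r → A.ι → V.X → ℂ),
  PreconnectedSpace V.X → IsLB n A → (∀ j, IsSec n A (t j)) → Bs A t ≠ univ →
  ∃ (M : Bd V.X) (σ : M.ι → V.X → ℂ), IsLB n M ∧ IsSec n M σ ∧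
    (∀ x a b, x ∈ A.U a → x ∈ M.U b → ∀ j, ∃ u, Hol n u x ∧ ∀ᶠ y in 𝓝 x, t j a y = σ b y * u y) ∧
    ∀ x h (e : Chart n V.X), At e x → Hol n h x → h x = 0 → dd h e x ≠ 0 →
      (∀ᶠ y in 𝓝 x, h y = 0 → y ∈ Bs A t) → ¬ NZ M σ x

/-- row HYP: a germ of a hypersurface in the image -/
def HYP : Prop := ∀ {d n : ℕ} (W : Mf d) (V : Mf (n + 1)) (g : W.X → V.X) (z : W.X)
  (h : Fin n → V.X → ℂ), HolM d (n + 1) g → (∀ i, Hol (n + 1) (h i) (g z)) →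
  Ind d (fun i w => h i (g w)) z → ∃ f : V.X → ℂ, Hol (n + 1) f (g z) ∧ f (g z) = 0 ∧
    (∀ᶠ y in 𝓝 (g z), f y = 0 → y ∈ range g) ∧ ∀ e : Chart (n + 1) V.X, At e (g z) →
      dd f e (g z) ≠ 0 ∧ ∀ v, dd f e (g z) v = 0 → (∀ i, dd (h i) e (g z) v = 0) → v = 0

/-- row NOH: near a general point of a smooth hypersurface a thin set lies in the hypersurface -/
def NOH : Prop := ∀ {n : ℕ} (V : Mf n) (A : Set V.X) (x : V.X) (f : V.X → ℂ) (e : Chart n V.X),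
  Thin n A → At e x → Hol n f x → f x = 0 → dd f e x ≠ 0 →
  ∃ᶠ y in 𝓝 x, f y = 0 ∧ ∀ᶠ z in 𝓝 y, z ∈ A → f z = 0

/-- the zero sets of `h 0, ..., h (j - 1)` are transversal, for all `j` -/
def Tv (n : ℕ) {X : Type} [TopologicalSpace X] [ChartedSpace (Cm n) X] {k : ℕ} (A : Bd X)
    (h : Fin k → A.ι → X → ℂ) : Prop :=
  ∀ j (hj : j ≤ k) x a, x ∈ A.U a → (∀ i : Fin j, h (Fin.castLE hj i) a x = 0) →
    Ind n (fun i : Fin j => h (Fin.castLE hj i) a) x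

/-- row SIM: the theorem of Bertini for finitely many manifolds and several sections -/
def SIM : Prop := ∀ {n : ℕ} (X : Mf n) (A : Bd X.X) (ι β : Type) [Fintype ι] [Fintype β]
  (s : ι → A.ι → X.X → ℂ) (d : β → ℕ) (W : ∀ b, Mf (d b)) (g : ∀ b, (W b).X → X.X) (k : ℕ),
  IsLB n A → (∀ j, IsSec n A (s j)) → Bs A s = ∅ → (∀ b, HolM (d b) n (g b)) →
  ∃ c : Fin k → ι → ℂ, ∀ b, Tv (d b) (pull (g b) A) fun i => res (g b) A (∑ j, c i j • s j)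

/-- row LAD: complete intersections -/
def LAD : Prop := ∀ T : CT, T.OK → ∀ (k : ℕ) {m n : ℕ} (V : Mf m) (A : Bd V.X)
  (h : Fin k → A.ι → V.X → ℂ), m = n + k → IsLB m A → (∀ i, IsSec m A (h i)) → Tv m A h →
  ∃ (Z : Mf n) (i : Z.X → V.X) (hi : Emb n m i (Bs A h)),
    ∀ a, T.int V (T.c1 V A ^ k * a) = T.int Z (T.pull hi.hol a)

/-- row CNT: counting transversal zeros -/
def CNT : Prop := ∀ T : CT, T.OK →
  (∀ {k : ℕ} (V : Mf k) (A : Bd V.X) (h : Fin k → A.ι → V.X → ℂ), IsLB k A →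
    (∀ i, IsSec k A (h i)) → Tv k A h →
    (Bs A h).Finite ∧ T.int V (T.c1 V A ^ k) = (Bs A h).ncard) ∧
  ∀ {k : ℕ} (V : Mf (k + 1)) (A M : Bd V.X) (h : Fin k → A.ι → V.X → ℂ) (σ : M.ι → V.X → ℂ),
    IsLB (k + 1) A → IsLB (k + 1) M → (∀ i, IsSec (k + 1) A (h i)) → IsSec (k + 1) M σ →
    Tv (k + 1) A h → (∀ x a b (e : Chart (k + 1) V.X), x ∈ A.U a → x ∈ M.U b → At e x →
      (∀ i, h i a x = 0) → σ b x = 0 → ∀ v, (∀ i, dd (h i a) e x v = 0) → dd (σ b) e x v = 0 →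
        v = 0) →
    T.int V (T.c1 V A ^ k * T.c1 V M) = (Bs A h ∩ {x | ¬ NZ M σ x}).ncard

/-- row BAD: the singular zeros of a section; images of manifolds of smaller dimension -/
def BAD : Prop :=
  (∀ {n : ℕ} (V : Mf n) (M : Bd V.X) (σ : M.ι → V.X → ℂ), IsLB n M → IsSec n M σ →
    ∃ B : Set V.X, An n B ∧ ∀ x b (e : Chart n V.X), x ∈ M.U b → At e x →
      (x ∈ B ↔ σ b x = 0 ∧ dd (σ b) e x = 0)) ∧
  ∀ {d n : ℕ} (W : Mf d) (V : Mf n) (g : W.X → V.X), d < n → HolM d n g → Dense (range g)ᶜ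

/-- row UP: the line bundle of the image of a manifold of codimension one -/
def UP : Prop := ∀ T : CT, T.OK → ∀ {n N : ℕ} (X : Mf (n + 1)) (V : Mf n) (g : V.X → X.X)
  (hg : HolM n (n + 1) g) (H : Bd X.X) (s : Fin N → H.ι → X.X → ℂ), ConnectedSpace X.X →
  Va (n + 1) H s → 0 < T.int V (T.pull hg (T.c1 X H ^ n)) →
  ∃ (M : Bd X.X) (σ : M.ι → X.X → ℂ), IsLB (n + 1) M ∧ IsSec (n + 1) M σ ∧ Dense {x | NZ M σ x} ∧
    (∀ x, x ∉ range g → NZ M σ x) ∧ 0 < T.int X (T.c1 X H ^ n * T.c1 X M) ∧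
    T.int X (T.c1 X H ^ n * T.c1 X M) ≤ T.int V (T.pull hg (T.c1 X H ^ n))

/-- row LOW: a positive degree is at least one -/
def LOW : Prop := ∀ T : CT, T.OK → ∀ (P : Mf 1) (M : Bd P.X) (σ : M.ι → P.X → ℂ),
  PreconnectedSpace P.X → IsLB 1 M → IsSec 1 M σ → (∃ x, NZ M σ x) → 0 < T.int P (T.c1 P M) →
  1 ≤ T.int P (T.c1 P M)

/-- `x` lies on a curve which meets the curve `l` -/
def Mt {U K X : Type} (p : U → K) (e : U → X) (l : K) (x : X) : Prop :=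
  ∃ u₀ u₁ u₂, p u₀ = l ∧ e u₁ = e u₀ ∧ p u₂ = p u₁ ∧ e u₂ = x

/-- row VL: the curves which meet a given curve -/
def VL : Prop := ∀ T : CT, T.OK → ∀ {X : Mf 6} {K : Mf 8} {U : Mf 9} {p : U.X → K.X}
  {e : U.X → X.X} (sp : Sub 9 8 p) (se : Sub 9 6 e),
  (∀ l, ∃ (V : Mf 5) (g : V.X → X.X) (hg : HolM 5 6 g), (∀ x ∈ range g, Mt p e l x) ∧
    ∀ (a : T.H X) (c : ℝ), T.push p (T.pull se.hol (T.push e (T.pull sp.hol
      (T.push p (T.pull se.hol a))))) = algebraMap ℝ _ c → T.int V (T.pull hg a) = c) ∧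
  (Nonempty K.X → ∀ x, ∃ l, ¬ Mt p e l x)

/-- **the numerical input** -/
structure Num (T : CT) {X : Mf 6} {K : Mf 8} {U : Mf 9} (p : U.X → K.X) (e : U.X → X.X)
    (η : T.H X) : Prop where
  sp : Sub 9 8 p
  se : Sub 9 6 e
  cX : ConnectedSpace X.X
  ne : Nonempty U.X
  cp : ∀ l, IsPreconnected (p ⁻¹' {l})
  kc : T.Kc X η
  can : T.c1 X (Bd.can 6 X.X) = (-5 : ℝ) • η
  h2 : ∀ L, IsLB 6 L → ∃ a : ℝ, T.c1 X L = a • η
  vol : T.int X (η ^ 6) = 5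
  deg : T.push p (T.pull se.hol η) = 1
  g5 : T.push e (T.pull sp.hol (T.push p (T.pull se.hol (η ^ 5)))) = (5 : ℝ) • η

/-- **second output of the block**: the fundamental line bundle -/
def FUN : Prop := ∀ T : CT, T.OK → HRR T → ∀ {X : Mf 6} {K : Mf 8} {U : Mf 9} (p : U.X → K.X)
  (e : U.X → X.X) (η : T.H X), Num T p e η → ∃ L, IsLB 6 L ∧ Bpf 6 L ∧ T.c1 X L = η

end Vale.Agent.P280Z.Gm
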