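import Vale.Agent.P280Z.Gm.Defs
import Vale.Agent.P281Z.Mf.Fib

/-!
# P280Z, row FIBI: integration over one fibre
-/

open scoped Manifold ContDiff Topology
open Set Filter
open Vale.Agent.P272.K Vale.Agent.P285.H281.FD Vale.Agent.P281Z
open Vale.Agent.P277Z (at_chart)

noncomputable section

namespace Vale.Agent.P280Z.Gm

namespace FibiH

/-- the point -/
def pt : Mf 0 where
  X := Cm 0

instance : Unique pt.X := inferInstanceAs (Unique (Cm 0))

theorem sub_pt {d : ℕ} (F : Mf d) : Sub d 0 (fun _ : F.X => (default : pt.X)) :=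
  ⟨contMDiff_const, fun _ _ _ _ _ v => ⟨0, Subsingleton.elim _ v⟩⟩

theorem cart {n m d : ℕ} {V : Mf n} {W : Mf m} {f : V.X → W.X} {y : W.X} (hn : n = m + d)
    (hf : Sub n m f) {F : Mf d} {i : F.X → V.X} (hi : Emb d n i (f ⁻¹' {y})) :
    Cart (W' := pt) f (fun _ => y) (fun _ : F.X => default) i where
  dim := by omega
  sf := hf
  sf' := sub_pt F
  hg := contMDiff_const
  hg' := hi.hol
  comm := hi.fib
  uniq _ x h := by
    obtain ⟨z, hz⟩ : x ∈ range i := hi.rng ▸ (h.symm : x ∈ f ⁻¹' {y})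
    exact ⟨z, ⟨Subsingleton.elim _ _, hz⟩, fun z' k => hi.inj (k.2.trans hz.symm)⟩
  imm z _ _ h := hi.imm z _ _ (at_chart z) (at_chart (i z)) (h.trans (map_zero _).symm)

end FibiH

open FibiH in
/-- **row FIBI** -/
theorem fibi : FIBI := by
  intro T hT n m d V W f y hn hf
  refine ⟨fib_emb hn hf.hol fun x _ => hf.sbm x, fun F i hi a c hc => ?_⟩
  have h := congrArg (T.int pt) (hT.pu.bc (cart hn hf hi) a)
  rw [hT.pu.int (sub_pt F), hc, AlgHom.commutes, Algebra.algebraMap_eq_smul_one, map_smul,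
    hT.rg.int_pt, Nat.card_unique, Nat.cast_one, smul_eq_mul, mul_one] at h
  exact h.symm

end Vale.Agent.P280Z.Gm
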