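import Vale.Agent.P280Z.Gm.Defs
import Vale.Agent.P280Z.Ld.Api
import Vale.Agent.P281Z.Mf.An

/-!
# P280Z, block Gm: the Todd genus and numerically trivial line bundles
-/

open scoped Manifold ContDiff Topology
open Set Filter
open Vale.Agent.P272.K Vale.Agent.P285.H281.FD Vale.Agent.P281Z
open Vale.Agent.P277Z (Hol hol_const)
open Vale.Agent.P277Z.Slc (triv isLB_triv)
open Vale.Agent.P280Z.Ld (h0 Ap Γ)

noncomputable section

namespace Vale.Agent.P280Z.Gm

namespace RtH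

variable {T : CT} {n : ℕ} {V : Mf n} {M : Bd V.X} {s : M.ι → V.X → ℂ}

theorem an_z (hM : IsLB n M) (hs : IsSec n M s) : An n {x | ¬ NZ M s x} := fun x =>
  let ⟨a, ha⟩ := hM.cover x
  ⟨1, fun _ => s a, fun _ => sec_hol hs ha, (lb_near hM ha).mono fun _ k => by
    simpa using Ld.not_nz hM hs k⟩

theorem nozero (hT : T.OK) (hc : ConnectedSpace V.X) {w : T.H V} (hw : T.Kc V w) (hM : IsLB n M)
    (h0 : T.c1 V M = 0) (hs : IsSec n M s) {x₀ : V.X} (hx : NZ M s x₀) (x : V.X) : NZ M s x := by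
  have hd : Dense {x | NZ M s x} := by
    have h := ((an_z hM hs).thin fun k => (k ▸ mem_univ x₀ : x₀ ∈ {x | ¬ NZ M s x}) hx).dense
    simpa only [compl_setOf, not_not] using h
  by_contra hz
  cases n with
  | zero =>
    haveI : DiscreteTopology V.X := ChartedSpace.discreteTopology (Cm 0) V.X
    exact hz (show x ∈ {x | NZ M s x} from dense_discrete.1 hd ▸ mem_univ x)
  | succ k =>
    have h := (hT.eff V M s k (fun _ => w) rfl hM hs hd
      fun _ => hT.po.mono hw fun _ => le_top).2 (fun _ => hw) ⟨x, hz⟩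
    rw [h0, zero_mul, map_zero] at h
    exact lt_irrefl _ h

theorem sec_const (c : ℂ) : IsSec n (triv V.X) fun _ _ => c :=
  isSec_of (fun _ x _ => hol_const c x) fun _ _ _ _ _ => (one_mul c).symm

theorem c1_triv (hT : T.OK) : T.c1 V (triv V.X) = 0 :=
  hT.c1.triv V _ _ isLB_triv (sec_const 1) fun _ _ _ => one_ne_zero

theorem h0_triv (hT : T.OK) (hc : ConnectedSpace V.X) {w : T.H V} (hw : T.Kc V w) :
    h0 n (triv V.X) = 1 := by
  obtain ⟨x₀⟩ : Nonempty V.X := inferInstance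
  have hm : ∀ c : ℂ, (fun _ _ => c) ∈ Γ n (triv V.X) := fun c =>
    ⟨sec_const c, fun _ x k => absurd (mem_univ x) k⟩
  refine finrank_eq_one_iff'.2 ⟨⟨_, hm 1⟩, fun k => one_ne_zero
    (congrFun (congrFun (congrArg Subtype.val k) ()) x₀), fun s => ⟨s.1 () x₀, ?_⟩⟩
  refine Subtype.ext (funext fun a => funext fun x => ?_)
  by_contra hne
  have h := nozero hT hc hw isLB_triv (c1_triv hT)
    ((Γ n (triv V.X)).sub_mem s.2 (hm (s.1 () x₀))).1 (x₀ := x)
    (fun _ _ k => hne ((mul_one _).trans (sub_eq_zero.1 k).symm)) x₀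
  exact h () (mem_univ _) (sub_self _)

theorem ap0 (hF : Fa T V) (h0 : T.c1 V M = 0) : Ap T V M := by
  rw [Ap, h0, zero_sub]
  exact hF

end RtH

open RtH in
theorem rt : RT := by
  intro T hT hR
  have h1 : RR1 T := fun V hc hF => by
    have h := hR V _ isLB_triv (ap0 hF (c1_triv hT))
    rw [h0_triv hT hc hF, c1_triv hT, Nat.cast_one] at h
    exact h.symm
  refine ⟨h1, fun {n} V M hc hF hM hz => ?_⟩
  have h := hR V M hM (ap0 hF hz)
  rw [hz, h1 V hc hF, Nat.cast_eq_one] at h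
  obtain ⟨s, hs, -⟩ := finrank_eq_one_iff'.1 h
  have hx : ∃ x, NZ M s.1 x := by
    by_contra k
    refine hs (Subtype.ext (Ld.Γ_ext s.2 (Γ n M).zero_mem fun a x ha => ?_))
    exact (Ld.not_nz hM s.2.1 ha).1 fun e => k ⟨x, e⟩
  obtain ⟨x₀, hx⟩ := hx
  exact ⟨s.1, s.2.1, nozero hT hc hF hM hz s.2.1 hx⟩

end Vale.Agent.P280Z.Gm
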