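import Vale.Agent.P280Z.Gm.Defs
import Vale.Agent.P281Z.Mf.Sub

/-!
# P280Z, block Gm: the space of the components of the fibres of a submersion
-/

open scoped Manifold ContDiff Topology
open Set Filter
open Vale.Agent.P272.K Vale.Agent.P281Z

noncomputable section

namespace Vale.Agent.P280Z.Gm

namespace Cq

variable {U X : Type} [TopologicalSpace U] [TopologicalSpace X] {e : U → X} {u u' : U}

/-- same component of a fibre -/
def R (e : U → X) (z z' : U) : Prop :=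
  ∃ C, IsPreconnected C ∧ z ∈ C ∧ z' ∈ C ∧ ∀ w ∈ C, e w = e z

omit [TopologicalSpace X] in
theorem R.eq (h : R e u u') : e u' = e u := let ⟨_, _, _, h2, h3⟩ := h; h3 _ h2

/-- the equivalence relation -/
def st (e : U → X) : Setoid U where
  r := R e
  iseqv := ⟨fun z => ⟨{z}, isPreconnected_singleton, rfl, rfl, fun _ hw => hw ▸ rfl⟩,
    fun ⟨C, h0, h1, h2, h3⟩ => ⟨C, h0, h2, h1, fun w hw => (h3 w hw).trans (h3 _ h2).symm⟩,
    fun ⟨C, h0, h1, h2, h3⟩ ⟨D, k0, k1, k2, k3⟩ => ⟨C ∪ D, h0.union _ h2 k1 k0, Or.inl h1,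
      Or.inr k2, fun w hw => hw.elim (h3 w) fun k => (k3 w k).trans (h3 _ h2)⟩⟩

omit [TopologicalSpace X] in
theorem R.symm (h : R e u u') : R e u' u := (st e).iseqv.symm h

omit [TopologicalSpace X] in
theorem R.trans {u'' : U} (h : R e u u') (k : R e u' u'') : R e u u'' := (st e).iseqv.trans h k

/-- near `u`, `u'` points of the same fibre are in the same component -/
def P (e : U → X) (u u' : U) : Prop :=
  e u = e u' ∧ ∃ N ∈ 𝓝 u, ∃ N' ∈ 𝓝 u', ∀ z ∈ N, ∀ z' ∈ N', e z = e z' → R e z z'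

/-- local product structure -/
def Box (e : U → X) : Prop := ∀ u, ∃ O ∈ 𝓝 u, ∀ z ∈ O, ∀ z' ∈ O, e z = e z' → R e z z'

theorem R.p (hc : Continuous e) (ho : IsOpenMap e) (hb : Box e) (h : R e u u') : P e u u' := by
  obtain ⟨C, h0, h1, h2, h3⟩ := h
  refine h0.induction₂' (P e) (fun x hx => ?_) ?_ h1 h2
  · obtain ⟨O, hO, hO'⟩ := hb x
    filter_upwards [mem_nhdsWithin_of_mem_nhds (eventually_mem_nhds_iff.2 hO),
      self_mem_nhdsWithin] with y hy hy'
    exact ⟨⟨(h3 x hx).trans (h3 y hy').symm, O, hO, O, hy, hO'⟩,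
      (h3 y hy').trans (h3 x hx).symm, O, hy, O, hO, hO'⟩
  · rintro a b c - - - ⟨k1, N, hN, N', hN', k2⟩ ⟨k3, M, hM, M', hM', k4⟩
    refine ⟨k1.trans k3, _, inter_mem hN (hc.continuousAt.preimage_mem_nhds
      (k1 ▸ ho.image_mem_nhds (inter_mem hN' hM))), M', hM', ?_⟩
    rintro z ⟨hz, w, hw, k5⟩ z' hz' k6
    exact (k2 z hz w hw.1 k5.symm).trans (k4 w hw.2 z' hz' (k5.trans k6))

theorem sat_open (hc : Continuous e) (ho : IsOpenMap e) (hb : Box e) {O : Set U} (hO : IsOpen O) :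
    IsOpen {x | ∃ y ∈ O, R e x y} := by
  refine isOpen_iff_mem_nhds.2 ?_
  rintro x ⟨y, hy, h⟩
  obtain ⟨k1, N, hN, N', hN', k2⟩ := h.p hc ho hb
  refine mem_of_superset (inter_mem hN (hc.continuousAt.preimage_mem_nhds
    (k1 ▸ ho.image_mem_nhds (inter_mem hN' (hO.mem_nhds hy))))) ?_
  rintro z ⟨hz, w, hw, k5⟩
  exact ⟨w, hw.2, k2 z hz w hw.1 k5.symm⟩

theorem closed_of [T2Space X] (hc : Continuous e) (hb : Box e) (x : X) {Q : U → Prop}
    (hQ : ∀ a b, R e a b → Q a → Q b) : IsClosed {z | e z = x ∧ Q z} := by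
  refine isOpen_compl_iff.1 (isOpen_iff_mem_nhds.2 fun z hz => ?_)
  by_cases h : e z = x
  · obtain ⟨O, hO, hO'⟩ := hb z
    filter_upwards [hO] with w hw k
    exact hz ⟨h, hQ w z (hO' w hw z (mem_of_mem_nhds hO) (k.1.trans h.symm)) k.2⟩
  · filter_upwards [hc.continuousAt.eventually_ne h] with w hw k
    exact hw k.1

theorem rel_closed [T2Space X] [T2Space U] [CompactSpace U] (hc : Continuous e) (hb : Box e) :
    IsClosed {q : U × U | R e q.1 q.2} := by
  refine isOpen_compl_iff.1 (isOpen_iff_mem_nhds.2 ?_)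
  rintro ⟨u, u'⟩ hq
  by_cases h : e u' = e u
  · obtain ⟨W, W', h1, h2, h3, h4, h5⟩ := normal_separation
      (closed_of hc hb (e u) (Q := R e u) fun a b k k' => k'.trans k)
      (closed_of hc hb (e u) (Q := fun z => ¬ R e u z) fun a b k k' k'' => k' (k''.trans k.symm))
      (disjoint_left.2 fun z k k' => k'.2 k.2)
    have h6 := hc.isClosedMap.eventually_nhds_fiber (p := fun z => z ∈ W ∪ W') (e u)
      fun z hz => (h1.union h2).mem_nhds
        ((em (R e u z)).elim (fun k => Or.inl (h3 ⟨hz, k⟩)) fun k => Or.inr (h4 ⟨hz, k⟩))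
    refine mem_of_superset (prod_mem_nhds (inter_mem (hc.continuousAt.eventually h6)
      (h1.mem_nhds (h3 ⟨rfl, (st e).iseqv.refl u⟩))) (h2.mem_nhds (h4 ⟨h, hq⟩))) ?_
    rintro ⟨z, z'⟩ ⟨⟨k1, k2⟩, k3⟩ ⟨C, k4, k5, k6, k7⟩
    exact disjoint_left.1 h5 (k4.subset_left_of_subset_union h1 h2 h5
      (fun w hw => k1 w (k7 w hw)) ⟨z, k5, k2⟩ k6) k3
  · have h1 : ∀ᶠ q : U × U in 𝓝 (u, u'), e q.2 ≠ e q.1 :=
      (isClosed_eq (hc.comp continuous_snd) (hc.comp continuous_fst)).isOpen_compl.mem_nhds h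
    filter_upwards [h1] with q k k'
    exact k (R.eq k')

/-- the topological factorization -/
theorem top [T2Space X] [T2Space U] [CompactSpace U] (hc : Continuous e) (ho : IsOpenMap e)
    (hb : Box e) : ∃ (Z : Type) (_ : TopologicalSpace Z) (_ : T2Space Z) (_ : CompactSpace Z)
      (π : U → Z) (ε : Z → X), Continuous π ∧ Function.Surjective π ∧ Continuous ε ∧
      (∀ u, ε (π u) = e u) ∧ (∀ y, IsPreconnected (π ⁻¹' {y})) ∧
      ∀ y, ∃ c : OpenPartialHomeomorph Z X, y ∈ c.source ∧ ∀ z, c z = ε z := by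
  let _ := st e
  let π : U → Quotient (st e) := Quotient.mk (st e)
  have πc : Continuous π := continuous_quotient_mk'
  have πs : Function.Surjective π := Quotient.mk_surjective
  have πe : ∀ x y, π x = π y ↔ R e x y := fun _ _ => Quotient.eq
  have πo : IsOpenMap π := fun O h => by
    rw [← isQuotientMap_quotient_mk'.isOpen_preimage]
    have k : Quotient.mk' ⁻¹' (π '' O) = {x | ∃ y ∈ O, R e x y} :=
      ext fun x => exists_congr fun y => and_congr_right fun _ => eq_comm.trans (πe x y)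
    exact k ▸ sat_open hc ho hb h
  let ε : Quotient (st e) → X := Quotient.lift e fun a b h => (R.eq h).symm
  have εc : Continuous ε := hc.quotient_lift _
  have εo : IsOpenMap ε := IsOpenMap.of_comp πc πs ho
  refine ⟨Quotient (st e), inferInstance, (t2Space_iff_of_isOpenQuotientMap ⟨πs, πc, πo⟩).2 (by
    simpa only [πe] using rel_closed hc hb), πs.compactSpace πc, π, ε, πc, πs, εc,
    fun _ => rfl, fun y => ?_, fun y => ?_⟩
  · obtain ⟨u, rfl⟩ := πs y
    refine isPreconnected_of_forall u fun z hz => ?_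
    obtain ⟨C, h0, h1, h2, h3⟩ := ((πe _ _).1 hz).symm
    exact ⟨C, fun w hw => (πe _ _).2 (R.symm ⟨C, h0, h1, hw, h3⟩), h1, h2, h0⟩
  · obtain ⟨u, rfl⟩ := πs y
    obtain ⟨O, hO, hO'⟩ := hb u
    have : Nonempty (Quotient (st e)) := ⟨π u⟩
    have hi : InjOn ε (π '' interior O) := by
      rintro _ ⟨z, hz, rfl⟩ _ ⟨z', hz', rfl⟩ k
      exact (πe _ _).2 (hO' z (interior_subset hz) z' (interior_subset hz') k)
    exact ⟨OpenPartialHomeomorph.ofContinuousOpen (hi.toPartialEquiv ε _) εc.continuousOn εo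
      (πo _ isOpen_interior), ⟨u, mem_interior_iff_mem_nhds.2 hO, rfl⟩, fun _ => rfl⟩

theorem box {m n : ℕ} {U : Mf m} {X : Mf n} {e : U.X → X.X} (h : Sub m n e) : Box e := by
  intro u
  have hχ := P277Z.at_chart (n := n) (e u)
  obtain ⟨Θ, -, h1, h2, h3⟩ := exists_co ((sbm_iff_ind (h.hol.at u) hχ).1 (h.sbm u))
    (d := m - n) (by have := (h.sbm u).le; simp; omega)
    (h.hol.cont.continuousAt.preimage_mem_nhds ((chartAt (Cm n) (e u)).open_source.mem_nhds hχ.2))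
  obtain ⟨r, hr, hr'⟩ := Metric.mem_nhds_iff.1 (Θ.open_target.mem_nhds (Θ.map_source h1))
  refine ⟨Θ.source ∩ Θ ⁻¹' Metric.ball (Θ u) r, inter_mem (Θ.open_source.mem_nhds h1)
    ((Θ.continuousAt h1).preimage_mem_nhds (Metric.ball_mem_nhds _ hr)), ?_⟩
  rintro z ⟨hz, hz₁⟩ z' ⟨hz', hz₂⟩ k
  have hC : Convex ℝ (Metric.ball (Θ u) r ∩ Prod.fst ⁻¹' {(Θ z).1}) :=
    (convex_ball _ _).inter ((convex_singleton _).linear_preimage (LinearMap.fst ℝ _ _))
  refine ⟨_, hC.isPreconnected.image Θ.symm (Θ.continuousOn_symm.mono fun v hv => hr' hv.1),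
    ⟨Θ z, ⟨hz₁, rfl⟩, Θ.left_inv hz⟩, ⟨Θ z', ⟨hz₂, ?_⟩, Θ.left_inv hz'⟩, ?_⟩
  · exact (h3 z' hz').trans (k ▸ (h3 z hz).symm)
  · rintro _ ⟨v, hv, rfl⟩
    have k1 := Θ.map_target (hr' hv.1)
    refine (chartAt (Cm n) (e u)).injOn (h2 k1) (h2 hz) ?_
    have k2 := h3 _ k1
    rw [Θ.right_inv (hr' hv.1)] at k2
    exact k2.symm.trans (hv.2.trans (h3 z hz))

end Cq

theorem cq : CQ := by
  intro m n U X e h
  obtain ⟨Z, _, _, _, π, ε, h1, h2, h3, h4, h5, h6⟩ := Cq.top h.hol.cont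
    (IsOpenMap.of_nhds_le fun u => ((h.sbm u).map_nhds (h.hol.at u)).ge) (Cq.box h)
  obtain ⟨Y, φ, k1, k2⟩ := exists_mf (d := n) (n := n) h3 fun y => by
    obtain ⟨c, hc, hc'⟩ := h6 y
    have hχ := P277Z.at_chart (n := n) (ε y)
    refine ⟨c.trans (chartAt (Cm n) (ε y)), ⟨hc, by simp [hc']⟩, fun z hz a ha => ?_⟩
    have k : ∀ᶠ z' in 𝓝 z, ε ((c.trans (chartAt (Cm n) (ε y))).symm z') =
        (chartAt (Cm n) (ε y)).symm z' := by
      filter_upwards [(c.trans (chartAt (Cm n) (ε y))).open_target.mem_nhds hz] with z' hz'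
      rw [← hc']
      exact c.right_inv hz'.2
    rw [k.self_of_nhds] at ha
    have k' : (fun z' => a (ε ((c.trans (chartAt (Cm n) (ε y))).symm z'))) =ᶠ[𝓝 z]
        fun z' => a ((chartAt (Cm n) (ε y)).symm z') := k.mono fun _ t => congrArg a t
    rw [k'.fderiv_eq]
    exact ⟨((co_chart hχ.1).inv z hz.1 a ha).congr k'.symm, (co_chart hχ.1).inj hz.1 ha⟩
  refine ⟨Y, fun u => φ.symm (π u), fun y => ε (φ y), φ.symm.continuous.comp h1,
    φ.symm.surjective.comp h2, ⟨k1, fun y => imm_iff_sbm.1 (k2 y)⟩, fun u => by simp [h4],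
    fun y => ?_⟩
  have : (fun u => φ.symm (π u)) ⁻¹' {y} = π ⁻¹' {φ y} :=
    ext fun u => φ.toEquiv.symm_apply_eq
  exact this ▸ h5 _

end Vale.Agent.P280Z.Gm
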