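import Vale.Agent.P280Z.Gm.Defs
import Vale.Agent.P281Z.Mf.Api

/-!
# P280Z, block Gm: unramified coverings
-/

open scoped Manifold ContDiff Topology
open Set Filter PowerSeries
open Vale.Agent.P272.K Vale.Agent.P285.H281.FD Vale.Agent.P281Z
open Vale.Agent.P277Z (at_chart)

noncomputable section

namespace Vale.Agent.P280Z.Gm

namespace Eta

theorem exc_map {B B' : Type} [CommRing B] [Algebra ℝ B] [CommRing B'] [Algebra ℝ B']
    (φ : B →ₐ[ℝ] B') {W : PowerSeries B} {W' : PowerSeries B'}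
    (h : ∀ k, coeff k W' = φ (coeff k W)) (d : ℕ) : exc W' d = φ (exc W d) := by
  induction d using Nat.strong_induction_on with
  | _ d ih =>
    rcases d with _ | d
    · rw [exc, exc, map_one]
    · rw [exc, exc, map_smul, map_sum]
      exact congrArg _ (Finset.sum_congr rfl fun i _ => by rw [map_mul, h, ih i i.2])

theorem fin0 (V : Mf 0) : Finite V.X := by
  have h1 : DiscreteTopology V.X := discreteTopology_iff_isOpen_singleton.2 fun x => by
    have : (chartAt (Cm 0) x).source = {x} := eq_singleton_iff_unique_mem.2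
      ⟨mem_chart_source _ x, fun y hy => (chartAt (Cm 0) x).injOn hy (mem_chart_source _ x)
        (Subsingleton.elim _ _)⟩
    exact this ▸ (chartAt (Cm 0) x).open_source
  exact finite_of_compact_of_discrete

end Eta

theorem eta_of (hV : VBL) (hF : FIBI) : ETA := by
  intro T hT n Y X ε hε hX
  have h1 : ∀ y, Function.Bijective (Df n n ε y) := fun y =>
    ⟨imm_iff_sbm.2 (hε.sbm y) _ _ (at_chart y) (at_chart _), hε.sbm y _ _ (at_chart y) (at_chart _)⟩
  have h2 : ∀ k, T.ps Y (VB.tan n Y.X) k = T.pull hε.hol (T.ps X (VB.tan n X.X) k) := fun k =>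
    (hT.ch.iso Y (hV.tan Y) (hV.pull _ hε.hol (hV.tan X)) (hV.df hε.hol) h1 k).trans
      (hT.ch.pull hε.hol _ (hV.tan X) k)
  refine ⟨fun h => ?_, fun x => ?_⟩
  · have h3 := hT.po.pull hε.hol h
    rw [← hT.ch.tan, ← h2, hT.ch.tan] at h3
    exact hT.po.mono h3 fun y => by
      rw [Submodule.comap_bot, LinearMap.ker_eq_bot.2 (h1 y).1]
  · obtain ⟨⟨F, i, hi⟩, h3⟩ := hF T hT (d := 0) ε x rfl hε
    obtain ⟨c, hc⟩ := hT.rg.h0 X hX (T.push ε 1) (by
      have := hT.pu.deg hε 0 rfl 0 1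
      rwa [hT.rg.dg_one Y] at this)
    have h4 := h3 F i hi 1 c hc
    rw [map_one, hT.rg.int_pt] at h4
    have := Eta.fin0 F
    refine ⟨hi.rng ▸ finite_range i, ?_⟩
    rw [← hi.rng, ncard_range_of_injective hi.inj, h4, CT.RR, CT.RR, Ex, Ex, coeff_mk, coeff_mk,
      Eta.exc_map (T.pull hε.hol) (W := C 0 + TL (T.ps X (VB.tan n X.X))) (fun k => by
        simp only [map_zero, zero_add, TL, coeff_mk, map_smul, h2]), ← hT.pu.int hε,
      ← one_mul (T.pull hε.hol _), hT.pu.proj hε, hc, ← Algebra.smul_def, map_smul, smul_eq_mul]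

end Vale.Agent.P280Z.Gm
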