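import Vale.Agent.P280Z.Gm.Fun
import Vale.Agent.P280Z.Gm.Up
import Vale.Agent.P280Z.Gm.Rt
import Vale.Agent.P280Z.Gm.Fibi
import Vale.Agent.P280Z.Gm.Cq
import Vale.Agent.P280Z.Gm.Eta
import Vale.Agent.P280Z.Gm.Ch
import Vale.Agent.P280Z.Gm.Sys
import Vale.Agent.P280Z.Gm.Gcd
import Vale.Agent.P280Z.Gm.Hyp
import Vale.Agent.P280Z.Gm.Noh
import Vale.Agent.P280Z.Gm.Sim
import Vale.Agent.P280Z.Gm.Lad
import Vale.Agent.P280Z.Gm.Bad
import Vale.Agent.P280Z.Gm.Vl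
import Vale.Agent.P280Z.Co.Vbl
import Vale.Agent.P280Z.Ld.Va
import Vale.Agent.P281Z.Rs.All

/-!
# P280Z, block Gm: the theorems
-/

namespace Vale.Agent.P280Z.Gm

theorem eta : ETA := eta_of vbl fibi

theorem cov : COV := cov_of rt cq eta

theorem up : UP :=
  up_of P281Z.rem (P281Z.par_of_res P281Z.res) (sys_of ch) gcd hyp noh sim cnt bad

theorem fund : FUN := fun_of rt fibi up low (vl_of fibi bad) Ld.va

end Vale.Agent.P280Z.Gm
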