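import Vale.Agent.P280Z.Gm.Defs
import Vale.Agent.P280Z.En.Defs
import Vale.Agent.P280Z.Cv.Sk2
import Vale.Agent.P280Z.Hr.Sk

/-!
# P280Z, block Gm: the end of stage one
-/

open Vale.Agent.P272.K Vale.Agent.P285.H281.FD Vale.Agent.P281Z
open Vale.Agent.P280Z.Mp (Eqs)

noncomputable section

namespace Vale.Agent.P280Z.Gm

/-- the output of the elimination -/
def AL : Prop := ∀ (T : CT) {N r d δ : ℕ} {V : Mf 6} {P : Eqs r N} {pt : Cm N → V.X}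
  (F : Mp.Fam V P pt d 12 8) (E : VB F.U.X), Cv.Sit T δ F 3 E → HRR T →
  Num T F.p F.e ((d : ℝ)⁻¹ • T.c1 V (O1 P pt))

theorem end_of (h1 : AL) (h2 : Hr.HRR) (h3 : FUN) (h4 : En.DP5) : Cv.END := by
  intro T N r d δ V P pt F E h
  have hN := h1 T F E h (h2 T h.ok)
  obtain ⟨L, a1, a2, a3⟩ := h3 T h.ok (h2 T h.ok) _ _ _ hN
  have := hN.cX
  refine h4 T h.ok V L ⟨inferInstance, a1, a2, a3 ▸ hN.kc, ?_, a3 ▸ hN.vol⟩
  rw [a3, hN.can]
  norm_num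

end Vale.Agent.P280Z.Gm
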