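import Vale.Agent.P280Z.Gm.Defs
import Vale.Agent.P281Z.Mf.Sub
import Vale.Agent.P277Z.Slc.Basic

/-!
# P280Z, block Gm: the two outputs from the rows
-/

open scoped Manifold ContDiff Topology
open Set Filter
open Vale.Agent.P272.K Vale.Agent.P285.H281.FD Vale.Agent.P281Z
open Vale.Agent.P277Z.Slc (lin isLB_can)
open Vale.Agent.P277.HD (pull)
open Vale.Agent.P280Z.Ld (Bs Va res h0 Ap)

noncomputable section

namespace Vale.Agent.P280Z.Gm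

theorem cov_of (h1 : RT) (h2 : CQ) (h3 : ETA) : COV := by
  intro T hT hR m n U X e he hU hX hF x
  obtain ⟨Y, π, ε, c1, c2, c3, c4, c5⟩ := h2 U X e he
  have hY : ConnectedSpace Y.X := c2.connectedSpace c1
  obtain ⟨a1, a2⟩ := h3 T hT Y X ε c3 inferInstance
  obtain ⟨-, b2⟩ := a2 x
  rw [(h1 T hT hR).1 Y hY (a1 hF), (h1 T hT hR).1 X hX hF, mul_one] at b2
  obtain ⟨y, hy⟩ := ncard_eq_one.1 (by exact_mod_cast b2.symm : (ε ⁻¹' {x}).ncard = 1)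
  have h : e ⁻¹' {x} = π ⁻¹' {y} := by
    ext u
    rw [← hy]
    simp only [mem_preimage, c4]
  rw [h]
  exact ⟨c2 y, c5 y⟩

namespace FunH

theorem liso {T : CT} (hT : T.OK) (h : TRIV T) {n : ℕ} {V : Mf n} {L M : Bd V.X}
    (hc : ConnectedSpace V.X) (hF : Fa T V) (hL : IsLB n L) (hM : IsLB n M)
    (k : T.c1 V L = T.c1 V M) : LIso n L M := by
  have hb : ∀ a, IsLB n (![L, M] a) := Fin.forall_fin_two.2 ⟨hL, hM⟩
  obtain ⟨s, h1, h2⟩ := h V _ hc hF (lb_lin hb ![1, -1]) (by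
    rw [hT.c1.lin V _ _ hb, Fin.sum_univ_two]
    simp [k])
  have h3 := cls_sec (lb_lin hb _) h1 h2
  rw [cls_lin hb, Fin.sum_univ_two] at h3
  rw [← cls_eq hL hM, ← sub_eq_zero]
  simpa [sub_eq_add_neg] using h3

theorem one (h2 : FIBI) (h3 : UP) (h4 : LOW) (h5 : VL) (h6 : Ld.VA) {T : CT} (hT : T.OK)
    {X : Mf 6} {K : Mf 8} {U : Mf 9} {p : U.X → K.X} {e : U.X → X.X} {η : T.H X}
    (h : Num T p e η) (l : K.X) : ∃ (M : Bd X.X) (σ : M.ι → X.X → ℂ), IsLB 6 M ∧ IsSec 6 M σ ∧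
      T.c1 X M = η ∧ ∀ x, ¬ Mt p e l x → NZ M σ x := by
  have hb : ∀ a, IsLB 6 (![Bd.can 6 X.X] a) := Fin.forall_fin_one.2 isLB_can
  have hA := lb_lin hb ![-1]
  have cA : T.c1 X (lin ![Bd.can 6 X.X] ![-1]) = (5 : ℝ) • η := by
    rw [hT.c1.lin X _ _ hb, Fin.sum_univ_one]
    simp [h.can]
  obtain ⟨k, r, s, hk, hs⟩ := h6 X _ hA (hT.kp X _ hA (cA ▸ hT.po.smul 5 (by norm_num) h.kc))
  have cH := hT.c1.pow X _ k hA
  rw [cA, smul_smul] at cH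
  have hν : 0 < ((k : ℝ) * 5) ^ 5 := by positivity
  obtain ⟨V, g, hg, a1, a2⟩ := (h5 T hT h.sp h.se).1 l
  have a3 := a2 (T.c1 X ((lin ![Bd.can 6 X.X] ![-1]).pow k) ^ 5) (((k : ℝ) * 5) ^ 5 * 5) (by
    rw [cH, smul_pow]
    simp only [map_smul, h.g5, h.deg, smul_smul, Algebra.algebraMap_eq_smul_one])
  obtain ⟨M, σ, hM, hσ, b1, b2, b3, b4⟩ := h3 T hT X V g hg _ s h.cX hs (by rw [a3]; positivity)
  obtain ⟨a, ha⟩ := h.h2 M hM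
  have b5 : T.int X (T.c1 X ((lin ![Bd.can 6 X.X] ![-1]).pow k) ^ 5 * T.c1 X M) =
      ((k : ℝ) * 5) ^ 5 * (a * 5) := by
    rw [cH, ha, smul_pow, smul_mul_smul_comm, ← pow_succ, map_smul, h.vol, smul_eq_mul, mul_assoc]
  rw [a3, b5] at b4
  rw [b5] at b3
  have a0 : 0 < a := by nlinarith [(mul_pos_iff_of_pos_left hν).1 b3]
  have a1' : a ≤ 1 := by nlinarith [le_of_mul_le_mul_left b4 hν]
  obtain ⟨u₀⟩ := h.ne
  obtain ⟨u, hu⟩ := ((h.se.sbm u₀).freq (h.se.hol.at u₀)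
    (mem_closure_iff_frequently.1 (b1 (e u₀)))).exists
  obtain ⟨⟨P, i, hi⟩, c2⟩ := h2 T hT (d := 1) p (p u) rfl h.sp
  have hP : ConnectedSpace P.X := hi.conn.2 ⟨⟨u, rfl⟩, h.cp _⟩
  have hj := h.se.hol.comp hi.hol
  have c3 : T.int P (T.c1 P (pull (fun z => e (i z)) M)) = a := by
    rw [hT.c1.pull hj M hM, hT.rg.pull_comp hi.hol h.se.hol hj (fun _ => rfl), ha]
    exact c2 P i hi _ a (by rw [map_smul, map_smul, h.deg, Algebra.algebraMap_eq_smul_one])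
  obtain ⟨z, hz⟩ := hi.ex (show u ∈ p ⁻¹' {p u} from rfl)
  have c4 := h4 T hT P _ _ inferInstance (hj.lb hM) (hj.sec hσ)
    ⟨z, show NZ M σ (e (i z)) from hz ▸ hu⟩ (c3 ▸ a0)
  rw [c3] at c4
  exact ⟨M, σ, hM, hσ, by rw [ha, le_antisymm a1' c4, one_smul],
    fun x hx => b2 x fun c => hx (a1 x c)⟩

end FunH

theorem fun_of (h1 : RT) (h2 : FIBI) (h3 : UP) (h4 : LOW) (h5 : VL) (h6 : Ld.VA) : FUN := by
  intro T hT hR X K U p e η h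
  have hF : Fa T X := by
    rw [Fa, h.can, ← neg_smul, neg_neg]
    exact hT.po.smul 5 (by norm_num) h.kc
  obtain ⟨u₀⟩ := h.ne
  obtain ⟨L, -, hL, -, cL, -⟩ := FunH.one h2 h3 h4 h5 h6 hT h (p u₀)
  refine ⟨L, hL, fun x => ?_, cL⟩
  obtain ⟨l, hl⟩ := (h5 T hT h.sp h.se).2 ⟨p u₀⟩ x
  obtain ⟨M, σ, hM, hσ, cM, hz⟩ := FunH.one h2 h3 h4 h5 h6 hT h l
  obtain ⟨t, ht⟩ := FunH.liso hT (h1 T hT hR).2 h.cX hF hL hM (cL.trans cM.symm)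
  exact ⟨_, ht.sec hL hM hσ, ht.nz hM (hz x hl)⟩

end Vale.Agent.P280Z.Gm
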