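import Vale.Agent.P280Z.Gm.Defs
import Vale.Agent.P280Z.Co.Fp

/-!
# P280Z, block Gm: the curves which meet a given curve
-/

open Set
open Vale.Agent.P281Z

namespace Vale.Agent.P280Z.Gm

theorem vl_of (hF : FIBI) (hB : BAD) : VL := by
  intro T hT X K U p e sp se
  refine ⟨fun l => ?_, fun hK x => ?_⟩
  · obtain ⟨⟨P, i, hi⟩, hint⟩ := hF T hT (d := 1) p l rfl sp
    obtain ⟨W, f1, g1, c1, -⟩ := fp 4 e (fun z => e (i z)) rfl se (se.hol.comp hi.hol)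
    obtain ⟨V, f2, g2, c2, -⟩ := fp 5 p (fun z => p (g1 z)) rfl sp (sp.hol.comp c1.hg')
    refine ⟨V, fun z => e (g2 z), se.hol.comp c2.hg', ?_, fun a c h => ?_⟩
    · rintro _ ⟨z, rfl⟩
      exact ⟨i (f1 (f2 z)), g1 (f2 z), g2 z, hi.mem _, c1.comm _, c2.comm z, rfl⟩
    · rw [hT.rg.pull_comp c2.hg' se.hol _ fun _ => rfl, ← hT.pu.int c2.sf', ← hT.pu.bc c2,
        hT.rg.pull_comp c1.hg' sp.hol c2.hg fun _ => rfl, ← hT.pu.int c1.sf', ← hT.pu.bc c1,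
        hT.rg.pull_comp hi.hol se.hol c1.hg fun _ => rfl]
      exact hint P i hi _ c h
  · obtain ⟨⟨F, i, hi⟩, -⟩ := hF T hT (d := 3) e x rfl se
    obtain ⟨C, f1, g1, c1, -⟩ := fp 4 p (fun z => p (i z)) rfl sp (sp.hol.comp hi.hol)
    obtain ⟨D, f2, g2, c2, -⟩ := fp 7 e (fun z => e (g1 z)) rfl se (se.hol.comp c1.hg')
    obtain ⟨l, hl⟩ := (hB.2 D K (fun z => p (g2 z)) (by norm_num) (sp.hol.comp c2.hg')).nonempty
    refine ⟨l, fun ⟨u0, u1, u2, h0, h1, h2, h3⟩ => hl ?_⟩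
    obtain ⟨y, rfl⟩ := hi.ex (y := u2) h3
    obtain ⟨z1, ⟨-, rfl⟩, -⟩ := c1.uniq y u1 h2
    obtain ⟨z2, ⟨-, rfl⟩, -⟩ := c2.uniq z1 u0 h1
    exact ⟨z2, h0⟩

end Vale.Agent.P280Z.Gm
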